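import Vale.Agent.P011.H74.U.S3bCom

/-!
# A common cubic field, characteristic three: the theorem
-/

open Module Topology

set_option linter.unusedSectionVars false

namespace Vale.Agent.P011.H74.S3U

open Vale.Agent.P011.H775 Vale.Agent.P011.H738 Vale.Agent.P011.H271 Vale.Agent.P011.H698
  Vale.Agent.P011.H305 Vale.Agent.P011.H948 Vale.Agent.P011.H756
open Vale.Agent.P011.H518 (Abv)

section above

variable {k K : Type} [Field k] [GFF k] [Field K] [GFF K] [Algebra k K]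

/-- The places above finitely many places are finitely many. -/
theorem fin_above {Q : Set (Place k)} (hQ : Q.Finite) (bel : Place K → Place k) (cc : Place K → ℝ)
    (hcc : ∀ V, 0 < cc V)
    (hbel : ∀ (V : Place K) (x : k), V.abv (algebraMap k K x) = (bel V).abv x ^ cc V) :
    {V : Place K | bel V ∈ Q}.Finite := by
  choose π hπ0 hπ using fun v : Place k => (nt_place (k := k)) v
  have hfin : (⋃ v ∈ Q, {V : Place K | V.abv (algebraMap k K (π v)) ≠ 1}).Finite :=
    hQ.biUnion fun v _ => place_fin ((_root_.map_ne_zero _).mpr (hπ0 v))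
  refine hfin.subset fun V hV => ?_
  rw [Set.mem_iUnion₂]
  refine ⟨bel V, hV, ?_⟩
  rw [Set.mem_ofPred_eq, hbel]
  exact (Real.rpow_lt_one (AbsoluteValue.nonneg _ _) (hπ (bel V)) (hcc V)).ne

end above

variable {k K D : Type} [Field k] [Field K] [StarRing K]
  [DivisionRing D] [StarRing D] [Algebra k K] [Algebra k D] [Algebra K D] [IsScalarTower k K D]
  {d : kˣ} {s : K} {N : ℕ}

/-- The two polynomials on a line over the ground field. -/
theorem exists_lineU (hS : SetF k K D d s) (hdeg : finrank K D = 3 ^ 2) (C : Cub K D) {x y : D}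
    (hx : star x = x) (hy : star y = y) (hTy : C.T y = 0) : ∃ e0 e1 e2 n0 n1 n2 n3 : k,
      algebraMap k K e0 = C.S x ∧ algebraMap k K e2 = C.S y ∧ algebraMap k K n0 = C.N x ∧
      algebraMap k K n3 = C.N y ∧
      ∀ t : k, algebraMap k K (e0 + t * e1 + t ^ 2 * e2) = C.S (x + t • y) ∧
        algebraMap k K (n0 + t * n1 + t ^ 2 * n2 + t ^ 3 * n3) = C.N (x + t • y) := by
  have := hS.fin
  have := hS.cen
  have hSC : SCub C := sCub_of C hdeg hS.star_smul
  obtain ⟨e0, he0⟩ := (hS.fix _).mp (hSC.S_symm hx)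
  obtain ⟨e2, he2⟩ := (hS.fix _).mp (hSC.S_symm hy)
  obtain ⟨e1, he1⟩ := (hS.fix _).mp (hSC.T_mul_symm hx hy)
  obtain ⟨n0, hn0⟩ := (hS.fix _).mp (hSC.N_symm hx)
  obtain ⟨n3, hn3⟩ := (hS.fix _).mp (hSC.N_symm hy)
  obtain ⟨n1, hn1⟩ := (hS.fix _).mp (hSC.T_mul_symm (hSC.adj_symm hx) hy)
  obtain ⟨n2, hn2⟩ := (hS.fix _).mp (hSC.T_mul_symm hx (hSC.adj_symm hy))
  refine ⟨e0, -e1, e2, n0, n1, n2, n3, he0, he2, hn0, hn3, fun t => ⟨?_, ?_⟩⟩
  · have h1 : C.S (x + algebraMap k K t • y) = C.S x + C.S (algebraMap k K t • y) +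
        C.T (C.cr x (algebraMap k K t • y)) := by
      rw [Cub.S, C.adj_add, map_add, map_add]
      rfl
    have h2 : C.T (x * algebraMap k K t • y) = algebraMap k K t * C.T (x * y) := by
      rw [mul_smul_comm, map_smul, smul_eq_mul]
    rw [← algebraMap_smul K t y, h1, C.S_smul, C.T_cr, h2, map_smul, hTy, smul_zero, mul_zero]
    simp only [map_add, map_mul, map_pow, map_neg, he0, he1, he2]
    ring
  · rw [← algebraMap_smul K t y, Vale.Agent.P011.H124.N_line]
    simp only [map_add, map_mul, map_pow, hn0, hn1, hn2, hn3]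

/-- **The common field.** -/
theorem common_u [GFF k] [GFF K] (hS : SetF k K D d s) (h30 : (3 : k) = 0)
    (hdeg : finrank K D = 3 ^ 2) (C : Cub K D) (B : Basis (Fin N) k D) {T : Set (Place k)}
    (hT : T.Finite)
    (hRT : ∀ {P : Set (Place k)}, P.Finite → (∀ v ∈ P, v ∉ T) →
      ∃ a : D, star a = a ∧ C.T a = 0 ∧ C.S a ≠ 0 ∧
        ∀ v ∈ P, ∃ n e : k, algebraMap k K n = C.N a ∧ algebraMap k K e = C.S a ∧
          v.abv n ^ 2 < v.abv e ^ 3)
    {a0 : D} (ha0 : star a0 = a0) (hT0 : C.T a0 = 1) :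
    ∃ γ : ℝ, 0 < γ ∧ ∀ zs : Set K, zs.Finite → (∀ z ∈ zs, z ≠ 0) →
      (∀ z ∈ zs, ∀ v ∈ T, ∀ V : Place K, Abv V v → V.abv (z - 1) < γ) →
      ∀ δ : ℝ, 0 < δ → ∃ a : D, star a = a ∧ C.T a = 1 ∧
        (∀ v ∈ T, ∀ i, v.abv (B.repr (a - a0) i) < δ) ∧
        ∀ z ∈ zs, ∀ V : Place K, LocX C a V z := by
  classical
  have : FiniteDimensional k K := Module.finite_of_finrank_pos (by rw [hS.rank]; norm_num)
  have h3 : (3 : K) = 0 := by
    rw [← map_ofNat (algebraMap k K) 3, h30, map_zero]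
  have hst : ∀ (c : k) (x : D), star (c • x) = c • star x := by
    intro c x
    rw [← algebraMap_smul K c x, hS.star_smul, (hS.fix _).mpr ⟨c, rfl⟩, algebraMap_smul]
  choose bel cc hcc hbel using fun V : Place K => Hey.H63.exists_below (k := k) V
  have hfin : ∀ {Q : Set (Place k)}, Q.Finite → {V : Place K | bel V ∈ Q}.Finite := fun hQ =>
    fin_above hQ bel cc hcc hbel
  -- the places of `T`
  have hop : ∀ V : Place K, ∃ ε : ℝ, 0 < ε ∧ ∀ (y' : D) (b' : K),
      V.abv (C.T y' - C.T a0) < ε → V.abv (C.S y' - C.S a0) < ε → V.abv (C.N y' - C.N a0) < ε →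
        V.abv (b' - 1) < ε → LocX C y' V b' := by
    intro V
    refine LocX.open (Or.inr (Or.inl ?_)) one_ne_zero ?_
    · rw [hT0]
      exact one_ne_zero
    · have := LocX.of_cube (C := C) (y := a0) (V := V) 1
      rwa [one_pow] at this
  choose ε0 hε0 hop using hop
  obtain ⟨γ, hγ, hγle⟩ := exists_min (hfin hT) ε0 fun V _ => hε0 V
  refine ⟨γ, hγ, fun zs hzs hz0 hzT δ hδ => ?_⟩
  have hB : (⋃ z ∈ zs, {V : Place K | V.abv z ≠ 1}).Finite :=
    hzs.biUnion fun z hz => place_fin (hz0 z hz)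
  set BK := ⋃ z ∈ zs, {V : Place K | V.abv z ≠ 1} with hBK
  set P : Set (Place k) := bel '' BK with hPdef
  have hP : P.Finite := hB.image _
  have := hS.fin
  have := hS.cen
  have hSC : SCub C := sCub_of C hdeg hS.star_smul
  obtain ⟨e0, he0⟩ := (hS.fix _).mp (hSC.S_symm ha0)
  obtain ⟨n0, hn0⟩ := (hS.fix _).mp (hSC.N_symm ha0)
  set Q : Set (Place k) := (P ∪ ({v | ¬ v.abv e0 ≤ 1} ∪ {v | ¬ v.abv n0 ≤ 1})) \ T with hQ
  have hQf : Q.Finite := (hP.union ((le_fin _).union (le_fin _))).subset Set.sdiff_subset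
  have hQT : ∀ v ∈ Q, v ∉ T := fun v hv => hv.2
  obtain ⟨y, hy, hTy, hSy, hyr⟩ := hRT hQf hQT
  obtain ⟨e0', e1, e2, n0', n1, n2, n3, he0', he2, hn0', hn3, hval⟩ :=
    exists_lineU hS hdeg C ha0 hy hTy
  have hinj : Function.Injective (algebraMap k K) := (algebraMap k K).injective
  obtain rfl : e0' = e0 := hinj (he0'.trans he0.symm)
  obtain rfl : n0' = n0 := hinj (hn0'.trans hn0.symm)
  have he2' : e2 ≠ 0 := by
    rintro rfl
    rw [map_zero] at he2
    exact hSy he2.symm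
  -- the places of `Q`
  have hQop : ∀ V : Place K, ∃ ε : ℝ, 0 < ε ∧ (bel V ∈ Q → ∀ z ∈ zs, ∀ y' : D,
      V.abv (C.T y' - C.T y) < ε → V.abv (C.S y' - C.S y) < ε → V.abv (C.N y' - C.N y) < ε →
        LocX C y' V z) := by
    intro V
    by_cases hV : bel V ∈ Q
    · have h1 : ∀ z : K, ∃ ε : ℝ, 0 < ε ∧ (z ∈ zs → ∀ y' : D, V.abv (C.T y' - C.T y) < ε →
          V.abv (C.S y' - C.S y) < ε → V.abv (C.N y' - C.N y) < ε → LocX C y' V z) := by
        intro z
        by_cases hz : z ∈ zs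
        · obtain ⟨n, e, hn, he, hlt⟩ := hyr _ hV
          have hl : LocX C y V z := by
            refine LocX.of_trace_zero hTy ?_
            rw [← hn, ← he, hbel, hbel, ← Real.rpow_natCast, ← Real.rpow_natCast,
              ← Real.rpow_mul ((bel V).abv.nonneg _), ← Real.rpow_mul ((bel V).abv.nonneg _),
              mul_comm (cc V), mul_comm (cc V), Real.rpow_mul ((bel V).abv.nonneg _),
              Real.rpow_mul ((bel V).abv.nonneg _), Real.rpow_natCast, Real.rpow_natCast]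
            exact Real.rpow_lt_rpow (by positivity) hlt (hcc V)
          obtain ⟨ε, hε, h⟩ := LocX.open (Or.inr (Or.inr hSy)) (hz0 z hz) hl
          refine ⟨ε, hε, fun _ y' f1 f2 f3 => h y' z f1 f2 f3 ?_⟩
          rw [sub_self, map_zero]
          exact hε
        · exact ⟨1, one_pos, fun h => absurd h hz⟩
      choose ε hε h1 using h1
      obtain ⟨ε', hε', h2⟩ := exists_min hzs ε fun z _ => hε z
      refine ⟨ε', hε', fun _ z hz y' f1 f2 f3 => h1 z hz y' (f1.trans_le (h2 z hz))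
        (f2.trans_le (h2 z hz)) (f3.trans_le (h2 z hz))⟩
    · exact ⟨1, one_pos, fun h => absurd h hV⟩
  choose ε1 hε1 hQop using hQop
  choose ε0' hε0' hpow0 using fun V : Place K => rpow_small (hε0 V) (hcc V)
  choose ε1' hε1' hpow1 using fun V : Place K => rpow_small (hε1 V) (hcc V)
  obtain ⟨εT, hεT, hεTle⟩ := exists_min (hfin hT) ε0' fun V _ => hε0' V
  obtain ⟨εQ, hεQ, hεQle⟩ := exists_min (hfin hQf) ε1' fun V _ => hε1' V
  choose R hR using fun v : Place k => inv_small v hεQ e0' e1 n0' n1 n2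
  choose r hr hrr using fun v : Place k => t_small v hεT e1 e2 n1 n2 n3
  have hσ : ∀ v : Place k, 0 < δ / (1 + ∑ i, v.abv (B.repr y i)) := fun v => by
    have h5 := Finset.sum_nonneg fun i (_ : i ∈ Finset.univ) => v.abv.nonneg (B.repr y i)
    exact div_pos hδ (by linarith)
  obtain ⟨t, ht1, ht2, ht3⟩ := choose_t (n1 := n1) (n2 := n2) (n3 := n3) (e1 := e1) he2' hT hQf
    hQT (fun v hvT hvQ => by
      have h1 : v ∉ (P ∪ ({v | ¬ v.abv e0' ≤ 1} ∪ {v | ¬ v.abv n0' ≤ 1})) := fun h => hvQ ⟨h, hvT⟩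
      simp only [Set.mem_union, Set.mem_ofPred_eq, not_or, not_not] at h1
      exact ⟨h1.2.1, h1.2.2⟩) (fun v => min (r v) (δ / (1 + ∑ i, v.abv (B.repr y i))))
    (fun v => lt_min (hr v) (hσ v)) R
  obtain ⟨hSa, hNa⟩ := hval t
  set a : D := a0 + t • y with ha
  have hTa : C.T a = 1 := by
    rw [ha, map_add, ← algebraMap_smul K t y, map_smul, hT0, hTy, smul_zero, add_zero]
  have hsa : star a = a := by rw [ha, star_add, ha0, hst, hy]
  refine ⟨a, hsa, hTa, fun v hv i => ?_, fun z hz V => ?_⟩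
  · rw [ha, add_sub_cancel_left, map_smul, Finsupp.smul_apply, smul_eq_mul, map_mul]
    have h4 := (ht1 v hv).trans_le (min_le_right _ _)
    have h5 := Finset.sum_nonneg fun i (_ : i ∈ Finset.univ) => v.abv.nonneg (B.repr y i)
    have h6 : v.abv (B.repr y i) ≤ ∑ i, v.abv (B.repr y i) :=
      Finset.single_le_sum (f := fun i => v.abv (B.repr y i)) (fun _ _ => v.abv.nonneg _)
        (Finset.mem_univ i)
    rw [lt_div_iff₀ (by linarith)] at h4
    have h7 := v.abv.nonneg t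
    nlinarith [mul_le_mul_of_nonneg_left h6 h7]
  have hbV := hbel V
  by_cases hvT : bel V ∈ T
  · -- near `a0`
    obtain ⟨f1, f2⟩ := hrr (bel V) t ((ht1 _ hvT).trans_le (min_le_left _ _))
    have g1 := hεTle V hvT
    refine hop V a z ?_ ?_ ?_ ?_
    · rw [hTa, hT0, sub_self, map_zero]
      exact hε0 V
    · rw [← hSa, ← he0', ← map_sub, hbV]
      refine hpow0 V _ ((bel V).abv.nonneg _) ?_
      have e : e0' + t * e1 + t ^ 2 * e2 - e0' = t * e1 + t ^ 2 * e2 := by ring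
      rw [e]
      exact f1.trans_le g1
    · rw [← hNa, ← hn0', ← map_sub, hbV]
      refine hpow0 V _ ((bel V).abv.nonneg _) ?_
      have e : n0' + t * n1 + t ^ 2 * n2 + t ^ 3 * n3 - n0' = t * n1 + t ^ 2 * n2 + t ^ 3 * n3 := by
        ring
      rw [e]
      exact f2.trans_le g1
    · exact (hzT z hz (bel V) hvT V ⟨cc V, hcc V, hbV⟩).trans_le (hγle V hvT)
  by_cases hvQ : bel V ∈ Q
  · -- near `y`
    obtain ⟨ht0, f1, f2, f3⟩ := hR (bel V) t (ht2 _ hvQ)
    have g1 := hεQle V hvQ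
    refine locX_smul (c := algebraMap k K t⁻¹) (hQop V hvQ z hz _ ?_ ?_ ?_)
    · rw [map_smul, hTa, hTy, sub_zero, smul_eq_mul, mul_one, hbV]
      exact hpow1 V _ ((bel V).abv.nonneg _) (f1.trans_le g1)
    · rw [C.S_smul, ← hSa, ← he2, ← map_pow, ← map_mul, ← map_sub, hbV]
      refine hpow1 V _ ((bel V).abv.nonneg _) ?_
      have e : t⁻¹ ^ 2 * (e0' + t * e1 + t ^ 2 * e2) - e2 = e0' * t⁻¹ ^ 2 + e1 * t⁻¹ := by
        field_simp
        ring
      rw [e]
      exact f2.trans_le g1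
    · rw [C.N_smul, ← hNa, ← hn3, ← map_pow, ← map_mul, ← map_sub, hbV]
      refine hpow1 V _ ((bel V).abv.nonneg _) ?_
      have e : t⁻¹ ^ 3 * (n0' + t * n1 + t ^ 2 * n2 + t ^ 3 * n3) - n3 =
          n0' * t⁻¹ ^ 3 + n1 * t⁻¹ ^ 2 + n2 * t⁻¹ := by
        field_simp
        ring
      rw [e]
      exact f3.trans_le g1
  -- the other places
  have hVB : V ∉ BK := fun h => hvQ ⟨Or.inl ⟨V, h, rfl⟩, hvT⟩
  simp only [hBK, Set.mem_iUnion, Set.mem_ofPred_eq, not_exists, not_not] at hVB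
  have hz1 := hVB z hz
  have hle : ∀ x : k, (bel V).abv x ≤ 1 → V.abv (algebraMap k K x) ≤ 1 := fun x hx => by
    rw [hbV]
    exact Real.rpow_le_one ((bel V).abv.nonneg _) hx (hcc V).le
  have heq : ∀ x : k, (bel V).abv x = 1 → V.abv (algebraMap k K x) = 1 := fun x hx => by
    rw [hbV, hx, Real.one_rpow]
  rcases ht3 (bel V) hvT hvQ with ⟨f1, f2⟩ | ⟨f0, f1, f2⟩
  · refine loc_int h3 ?_ ?_ ?_ hz1 (Or.inl ?_)
    · rw [hTa, map_one]
    · rw [← hSa]
      exact hle _ f1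
    · rw [← hNa]
      exact hle _ f2
    · rw [hTa, map_one]
  · refine locX_smul (c := algebraMap k K t⁻¹) (loc_int h3 ?_ ?_ ?_ hz1 (Or.inr ?_))
    · rw [map_smul, hTa, smul_eq_mul, mul_one]
      exact hle _ f0
    · rw [C.S_smul, ← hSa, ← map_pow, ← map_mul]
      exact hle _ f1.le
    · rw [C.N_smul, ← hNa, ← map_pow, ← map_mul]
      exact hle _ f2
    · rw [C.S_smul, ← hSa, ← map_pow, ← map_mul]
      exact heq _ f1

end Vale.Agent.P011.H74.S3U
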