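import Vale.Agent.P011.H74.U.S3bS7
import Vale.Agent.P011.H74.U.S3bCom2
import Vale.Agent.P011.H871.U.RootU
import Vale.Agent.P011.H518.S3bFF

/-!
# Two commuting unitary elements close to one with given reduced norms

Function fields of every odd characteristic.
-/

open Module TensorProduct Topology

set_option linter.unusedSectionVars false

namespace Vale.Agent.P011.H74.S3U

open Vale.Agent.P011.H775 Vale.Agent.P011.H948 Vale.Agent.P011.H698 Vale.Agent.P011.H738
  Vale.Agent.P011.H271 Vale.Agent.P011.H305 Vale.Agent.P011.H182 Vale.Agent.P011.H756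
open Vale.Agent.P011.H518 (Abv commute_of_commute')
open Vale.Agent.P011.H271.StarF (Nr S3b)

section s7

variable {k K D : Type} [Field k] [Field K] [StarRing K]
  [DivisionRing D] [StarRing D] [Algebra k K] [Algebra k D] [Algebra K D] [IsScalarTower k K D]
  [StarModule K D] {N : ℕ}

/-- **The elements of the unitary torus are moved close to one**, over function fields of
characteristic three. -/
theorem s7u_ff (hA : Anis k K D 3) (h2 : (2 : k) ≠ 0) (h3 : (3 : k) = 0) (C : Cub K D)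
    (B : Basis (Fin N) k D) {T : Set (Place k)} (hTf : T.Finite) (hT : ∀ v ∈ T, v ∈ Adiv k K D)
    (a0 : D) {ε : ℝ} (hε : 0 < ε) :
    ∃ δ : ℝ, 0 < δ ∧ ∀ u a e : D, (∀ v ∈ T, Sm B v δ (u - 1)) → (∀ v ∈ T, Sm B v δ (a - a0)) →
      star a = a → C.T a = 1 → e * star e = 1 → e * a = a * e → C.N e = C.N u →
      ∃ t : D, t * star t = 1 ∧ C.N t = 1 ∧ t * a = a * t ∧ ∀ v ∈ T, Sm B v ε (e * t - 1) := by
  classical
  have := hA.finiteDimensional (by norm_num)
  have := hA.central
  have hsm : ∀ (x : K) (y : D), star (x • y) = star x • star y := fun x y => star_smul x y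
  let T' : Finset (Place k) := hTf.toFinset
  have hT' : ∀ v : T', (v : Place k) ∈ Adiv k K D := fun v => hT v (hTf.mem_toFinset.mp v.2)
  choose φ hφ using hT'
  let i1 : ∀ v : T', NontriviallyNormedField (v : Place k).comp := fun v => nnfPlace (v : Place k)
  let i2 : ∀ v : T', Algebra K (v : Place k).comp := fun v =>
    (φ v : K →+* (v : Place k).comp).toAlgebra
  have i3 : ∀ v : T', IsScalarTower k K (v : Place k).comp := fun v =>
    IsScalarTower.of_algebraMap_eq fun c => ((φ v).commutes c).symm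
  have hC : SCub C := sCub_of C hA.finrank_eq hsm
  obtain ⟨w, hw⟩ := hA.star_ne
  have hs0 : w - star w ≠ 0 := fun h => hw (sub_eq_zero.mp h).symm
  have hs : star (w - star w) = -(w - star w) := by rw [star_sub, star_star, neg_sub]
  have hn : ∀ (v : T') (c : k), ‖algebraMap k (v : Place k).comp c‖ = (v : Place k).abv c :=
    fun v c => norm_alg _ c
  obtain ⟨δ, hδ, h1⟩ := @s7u_abs k K D _ _ _ _ _ _ _ _ _ _ _ C T' _
    (fun v => (v : Place k).comp) i1 (fun v => inferInstance) (fun v => inferInstance)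
    (fun v => inferInstance) i2 i3 N
    hC hA.finrank_eq (fun x hx => (hA.fixed x).mp hx) (fun x => (hA.fixed _).mpr ⟨x, rfl⟩)
    (w - star w) hs hs0 h2 h3 hφ (fun y η hη => place_weak T' y hη)
    (fun v => (v : Place k).abv) hn B a0 _ hε
  refine ⟨δ, hδ, fun u a e hu ha has hTa he hea hN => ?_⟩
  obtain ⟨t, ht1, ht2, ht3, ht4⟩ := h1 u a e (fun v i => hu v (hTf.mem_toFinset.mp v.2) i)
    (fun v i => ha v (hTf.mem_toFinset.mp v.2) i) has hTa he hea hN
  exact ⟨t, ht1, ht2, ht3, fun v hv i => (coord_le_na B _ _ i).trans_lt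
    (ht4 ⟨v, hTf.mem_toFinset.mpr hv⟩)⟩

end s7

section nm

variable {k K D : Type} [Field k] [Field K] [DivisionRing D]
  [Algebra k K] [Algebra k D] [Algebra K D] [IsScalarTower k K D] {N : ℕ}

/-- **The reduced norms of the elements close to one at finitely many places are close to one at
the places above**, without a hypothesis on three. -/
theorem val_norm_nearU [GFF k] [GFF K] (C : Cub K D) (h2 : (2 : K) ≠ 0)
    (B : Basis (Fin N) k D) {T : Set (Place k)} (hT : T.Finite) {γ : ℝ} (hγ : 0 < γ) :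
    ∃ δ : ℝ, 0 < δ ∧ ∀ u : D, Nr B T δ u → ∀ v ∈ T, ∀ V : Place K, Abv V v →
      V.abv (C.N u - 1) < γ := by
  classical
  have h1 : ∀ (v : Place k) (V : Place K), ∃ δ : ℝ, 0 < δ ∧ (Abv V v → ∀ u : D,
      (∀ i, v.abv (B.repr (u - 1) i) < δ) → V.abv (C.N u - 1) < γ) := by
    intro v V
    by_cases hex : Abv V v
    · obtain ⟨c, hc, hW⟩ := id hex
      obtain ⟨ε, hε, h⟩ := coeff_near C B h2 (algebraMap K V.comp) 1 hγ
      obtain ⟨ε', hε', h'⟩ := rpow_small hε hc
      refine ⟨ε', hε', fun _ u hu => ?_⟩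
      have h3 := (h u fun i => by
        rw [norm_alg, hW]
        exact h' _ (v.abv.nonneg _) (hu i)).2.2
      rwa [C.N_one, ← map_sub, norm_alg] at h3
    · exact ⟨1, one_pos, fun h => absurd h hex⟩
  choose δ hδ h using h1
  choose π hπ0 hπ using fun v : Place k => (nt_place (k := k)) v
  set P : Set (Place k × Place K) := {p | p.1 ∈ T ∧ Abv p.2 p.1} with hP
  have hfin : P.Finite := by
    have hfin' : (⋃ v ∈ T, (fun V : Place K => (v, V)) ''
        {V : Place K | V.abv (algebraMap k K (π v)) ≠ 1}).Finite :=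
      hT.biUnion fun v _ => (place_fin ((_root_.map_ne_zero _).mpr (hπ0 v))).image _
    refine hfin'.subset ?_
    rintro ⟨v, V⟩ ⟨hv, c, hc, hW⟩
    rw [Set.mem_iUnion₂]
    refine ⟨v, hv, V, ?_, rfl⟩
    rw [Set.mem_ofPred_eq]
    have h3 : V.abv (algebraMap k K (π v)) < 1 := by
      rw [hW]
      exact Real.rpow_lt_one (AbsoluteValue.nonneg _ _) (hπ v) hc
    exact h3.ne
  obtain ⟨ε, hε, hle⟩ := exists_min hfin (fun p => δ p.1 p.2) fun p _ => hδ _ _
  refine ⟨ε, hε, fun u hu v hv V hV => h v V hV u fun i => ?_⟩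
  exact (hu v hv i).trans_le (hle (v, V) ⟨hv, hV⟩)

end nm

variable {k K D : Type} [Field k] [Field K] [StarRing K] [DivisionRing D] [StarRing D]
  [Algebra k K] [Algebra k D] [Algebra K D] [IsScalarTower k K D] [StarModule K D] {d : kˣ}
  {s : K} {Ω : Type} [Field Ω] [Algebra K Ω] {N : ℕ}

/-- **Two commuting unitary elements close to one with given reduced norms**, characteristic
three. -/
theorem s3b_u (hk : IsGlobalFunctionField k) (hS : SetF k K D d s) (h30 : (3 : k) = 0)
    (hdeg : finrank K D = 3 ^ 2) (C : Cub K D) (f : D →ₐ[K] Matrix (Fin 3) (Fin 3) Ω)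
    (B : Basis (Fin N) k D) : S3b f B (Adiv k K D) := by
  classical
  have : GFF k := gff_of_isGlobal hk
  have := hS.fin
  have := hS.cen
  have : FiniteDimensional k K := Module.finite_of_finrank_pos (by rw [hS.rank]; norm_num)
  have : GFF K := Hey.H63.gff_of_finite (k := k)
  have hA := hS.anis hdeg
  have h2K : (2 : K) ≠ 0 := by
    rw [← map_ofNat (algebraMap k K) 2]
    exact (_root_.map_ne_zero _).mpr hS.two_ne
  have h3K : (3 : K) = 0 := by rw [← map_ofNat (algebraMap k K) 3, h30, map_zero]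
  have hss : ∀ c : K, star (algebraMap K D c) = algebraMap K D (star c) := fun c => by
    rw [Algebra.algebraMap_eq_smul_one, hS.star_smul, star_one, Algebra.algebraMap_eq_smul_one]
  have hT : (Adiv k K D).Finite := StarF.adiv_finite hA (by norm_num)
  obtain ⟨a0, ha0, hTa0⟩ := H871.U.exists_sym_one hdeg C (μ := 2⁻¹) (by
    rw [star_inv₀, star_ofNat]
    field_simp
    norm_num) (H871.U.exists_T_ne_any hk hA C)
  obtain ⟨γ, hγ, hcom⟩ := common_u hS h30 hdeg C B hT (fun hP hPT => by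
    obtain ⟨a, h1, h2, h3, -, h4⟩ := H871.U.rtU hk hA C hP hPT 0
    exact ⟨a, h1, h2, h3, h4⟩) ha0 hTa0
  intro η hη
  obtain ⟨δ₁, hδ₁, hnear⟩ := val_norm_nearU C h2K B hT hγ
  obtain ⟨δ₂, hδ₂, h7⟩ := s7u_ff hA hS.two_ne h30 C B hT (fun v hv => hv) a0 hη
  refine ⟨min δ₁ δ₂, lt_min hδ₁ hδ₂, fun u w₀ hun hwn => ?_⟩
  have hb : ∀ x : UA D, C.N ((x : Dˣ) : D) * star (C.N ((x : Dˣ) : D)) = 1 := by
    intro x
    have h1 := (C.star_coeff hdeg hss ((x : Dˣ) : D)).2.2
    rw [← h1, ← C.N_mul, ua_mul_star x, C.N_one]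
  have hN0 : ∀ x : UA D, C.N ((x : Dˣ) : D) ≠ 0 := fun x => C.N_ne_zero (x : Dˣ).ne_zero
  obtain ⟨a, ha, hTa, han, hloc⟩ := hcom {C.N ((u : Dˣ) : D), C.N ((w₀ : Dˣ) : D)}
    (Set.toFinite _) (by
      rintro z (rfl | rfl)
      · exact hN0 u
      · exact hN0 w₀) (by
      rintro z (rfl | rfl) v hv V hV
      · exact hnear _ (hun.mono (min_le_left _ _)) v hv V hV
      · exact hnear _ (hwn.mono (min_le_left _ _)) v hv V hV) δ₂ hδ₂
  have haK : a ∉ Set.range (algebraMap K D) := by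
    rintro ⟨c, rfl⟩
    rw [Algebra.algebraMap_eq_smul_one, map_smul, C.T_one, h3K, smul_zero] at hTa
    exact zero_ne_one hTa
  have hdP : H929.dP C a ≠ 0 := dP_ne_of haK (Or.inr (Or.inl (by
    rw [hTa]
    exact one_ne_zero)))
  have hcs : Commute (star a) a := by rw [ha]
  have key : ∀ x : UA D, Nr B (Adiv k K D) (min δ₁ δ₂) ((x : Dˣ) : D) →
      (∀ V : Place K, LocX C a V (C.N ((x : Dˣ) : D))) → ∃ e : UA D,
        Commute ((e : Dˣ) : D) a ∧
          (f ((e : Dˣ) : D)).det = (f ((x : Dˣ) : D)).det ∧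
          Nr B (Adiv k K D) η ((e : Dˣ) : D) := by
    intro x hxn hl
    obtain ⟨e, he, hea, heN⟩ := exists_unitary_NX C hdeg hss hdP hcs (hb x) hl
    obtain ⟨t, ht1, ht2, ht3, ht4⟩ := h7 ((x : Dˣ) : D) a e (fun v hv =>
      (hxn v hv).mono (min_le_right _ _)) (fun v hv i => han v hv i) ha hTa he hea.eq heN
    have het : e * t * star (e * t) = 1 := by
      rw [star_mul, mul_assoc, ← mul_assoc t, ht1, one_mul, he]
    have het0 : e * t ≠ 0 := left_ne_zero_of_mul_eq_one het
    refine ⟨⟨Units.mk0 (e * t) het0, het⟩, ?_, ?_, fun v hv => ht4 v hv⟩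
    · have h5 : Commute t a := ht3
      exact hea.mul_left h5
    · rw [(H511.spl_compat C hdeg f ((x : Dˣ) : D)).2.2.1]
      refine ((H511.spl_compat C hdeg f (e * t)).2.2.1).trans ?_
      rw [C.N_mul, ht2, mul_one, heN]
  obtain ⟨e₁, hc₁, hd₁, hn₁⟩ := key u hun (hloc _ (Set.mem_insert _ _))
  obtain ⟨e₂, hc₂, hd₂, hn₂⟩ := key w₀ hwn (hloc _ (Set.mem_insert_of_mem _ rfl))
  exact ⟨e₁, e₂, Subtype.ext (Units.ext (commute_of_commute' hdeg haK hc₁ hc₂).eq), hn₁, hn₂,
    hd₁, hd₂⟩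

/-- **Two commuting unitary elements close to one with given reduced norms**, every odd
characteristic. -/
theorem s3b_ffU (hk : IsGlobalFunctionField k) (hS : SetF k K D d s)
    (hdeg : finrank K D = 3 ^ 2) (C : Cub K D) (f : D →ₐ[K] Matrix (Fin 3) (Fin 3) Ω)
    (B : Basis (Fin N) k D) : S3b f B (Adiv k K D) := by
  by_cases h3 : (3 : k) = 0
  · exact s3b_u hk hS h3 hdeg C f B
  · exact H518.s3b_ff hk hS h3 hdeg C f B

end Vale.Agent.P011.H74.S3U
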