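import Vale.Agent.P011.H74.PairF
import Vale.Agent.P011.H929.DP

/-!
# A pair of special unitary elements in general position, every odd characteristic

The pair `g`, `w` of `PairF`, with the further properties that the reduced characteristic
polynomials of `w` and of the commutator are separable.
-/

open Module Matrix Topology Filter

set_option linter.unusedSectionVars false

namespace Vale.Agent.P011.H74.PairU

open Vale.Agent.P011.H738 Vale.Agent.P011.H271 Vale.Agent.P011.H698 Vale.Agent.P011.H961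
  Vale.Agent.P011.H271.CosetF Vale.Agent.P011.H775 Vale.Agent.P011.H74.GlobF
  Vale.Agent.P011.H74.PairF
open Vale.Agent.P011.H182 (na)
open Vale.Agent.P011.H929 (dP)

section mat

variable {L : Type} [Field L]

/-- A diagonal matrix. -/
def mA (L : Type) [Field L] : (Matrix (Fin 3) (Fin 3) L)ˣ where
  val := !![-1, 0, 0; 0, -1, 0; 0, 0, 1]
  inv := !![-1, 0, 0; 0, -1, 0; 0, 0, 1]
  val_inv := by
    ext i j
    fin_cases i <;> fin_cases j <;> simp [Matrix.mul_apply, Fin.sum_univ_three]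
  inv_val := by
    ext i j
    fin_cases i <;> fin_cases j <;> simp [Matrix.mul_apply, Fin.sum_univ_three]

/-- A companion matrix. -/
def mB (L : Type) [Field L] : (Matrix (Fin 3) (Fin 3) L)ˣ where
  val := !![0, 0, 1; 1, 0, 0; 0, 1, 1]
  inv := !![0, 1, 0; -1, 0, 1; 1, 0, 0]
  val_inv := by
    ext i j
    fin_cases i <;> fin_cases j <;> simp [Matrix.mul_apply, Fin.sum_univ_three]
  inv_val := by
    ext i j
    fin_cases i <;> fin_cases j <;> simp [Matrix.mul_apply, Fin.sum_univ_three]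

theorem det_mA (L : Type) [Field L] : (mA L : Matrix (Fin 3) (Fin 3) L).det = 1 := by
  simp [mA, Matrix.det_fin_three]

theorem det_mB (L : Type) [Field L] : (mB L : Matrix (Fin 3) (Fin 3) L).det = 1 := by
  simp [mB, Matrix.det_fin_three]

/-- The derivative of the characteristic polynomial. -/
def df (Y : Matrix (Fin 3) (Fin 3) L) : Matrix (Fin 3) (Fin 3) L :=
  (3 : L) • (Y * Y) - (2 * Y.trace) • Y + Y.adjugate.trace • (1 : Matrix (Fin 3) (Fin 3) L)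

/-- The commutator. -/
def cf (a b : (Matrix (Fin 3) (Fin 3) L)ˣ) : Matrix (Fin 3) (Fin 3) L :=
  ((a * b * a⁻¹ * b⁻¹ : (Matrix (Fin 3) (Fin 3) L)ˣ) : Matrix (Fin 3) (Fin 3) L)

theorem tf_m (L : Type) [Field L] : tf (mA L) (mB L) = -8 := by
  simp only [tf, Units.val_mul]
  simp [mA, mB, Matrix.trace, Fin.sum_univ_three]
  ring

theorem nf_m {L : Type} [Field L] (h2 : (2 : L) ≠ 0) : nf (mA L) (mB L) ≠ 0 := by
  intro h
  have h1 := congrFun (congrFun h 0) 2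
  simp only [nf, Units.val_mul] at h1
  simp [mA, mB] at h1
  apply h2
  linear_combination -h1

theorem df_m {L : Type} [Field L] (h2 : (2 : L) ≠ 0) :
    df (mB L : Matrix (Fin 3) (Fin 3) L) ≠ 0 := by
  intro h
  have h1 := congrFun (congrFun h 1) 0
  simp [df, mB, Fin.sum_univ_three, Matrix.trace] at h1
  exact h2 h1

theorem cf_m (L : Type) [Field L] :
    cf (mA L) (mB L) = !![-1, 0, 0; 0, 1, 0; 2, 0, -1] := by
  simp only [cf, Units.val_mul]
  ext i j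
  (fin_cases i <;> fin_cases j <;> simp [mA, mB]); ring

theorem df_c {L : Type} [Field L] (h2 : (2 : L) ≠ 0) : df (cf (mA L) (mB L)) ≠ 0 := by
  intro h
  have h1 := congrFun (congrFun h 1) 1
  rw [cf_m] at h1
  simp [df, Fin.sum_univ_three, Matrix.trace, Matrix.adjugate_fin_three] at h1
  have h4 : (2 : L) * 2 = 0 := by linear_combination h1
  exact h2 (by simpa using h4)

theorem continuous_df {L : Type} [NontriviallyNormedField L] :
    Continuous (df : Matrix (Fin 3) (Fin 3) L → _) := by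
  unfold df
  fun_prop

theorem continuous_cf {L : Type} [NontriviallyNormedField L] :
    Continuous fun p : (Matrix (Fin 3) (Fin 3) L)ˣ × (Matrix (Fin 3) (Fin 3) L)ˣ =>
      cf p.1 p.2 := by
  have h1 : Continuous fun p : (Matrix (Fin 3) (Fin 3) L)ˣ × (Matrix (Fin 3) (Fin 3) L)ˣ =>
      p.1 * p.2 * p.1⁻¹ * p.2⁻¹ := by fun_prop
  exact Units.continuous_val.comp h1

end mat

variable {k K D Ω : Type} [Field k] [GFF k] [Field K] [StarRing K] [DivisionRing D] [StarRing D]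
  [Algebra k K] [Algebra k D] [Algebra K D] [IsScalarTower k K D] [StarModule K D] {N : ℕ}
  [Field Ω] [Algebra K Ω]

/-- **Pairs with images in a given open set** at some split place. -/
theorem exists_pair_open (hk : IsGlobalFunctionField k) (hA : Anis k K D 3)
    (f : D →ₐ[K] Matrix (Fin 3) (Fin 3) Ω) (B : Basis (Fin N) k D)
    {P1 : Set (Place k)} (hP1 : P1.Finite) {ε : ℝ} (hε : 0 < ε) :
    ∃ (v : Place k) (φ : K →ₐ[k] v.comp) (g : D →+* Matrix (Fin 3) (Fin 3) v.comp),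
      (∀ c : K, g (algebraMap K D c) = algebraMap v.comp _ (φ c)) ∧ v ∉ P1 ∧
      ∀ α β : (Matrix (Fin 3) (Fin 3) v.comp)ˣ, (α : Matrix (Fin 3) (Fin 3) v.comp).det = 1 →
        (β : Matrix (Fin 3) (Fin 3) v.comp).det = 1 →
        ∀ O ∈ 𝓝 (α, β), ∃ g0 w0 : SUA f,
          (∀ v ∈ P1, na B v.abv (((g0 : Dˣ) : D) - 1) < ε ∧
            na B v.abv (((w0 : Dˣ) : D) - 1) < ε) ∧
          (Units.map (g : D →* Matrix (Fin 3) (Fin 3) v.comp) (g0 : Dˣ),
            Units.map (g : D →* Matrix (Fin 3) (Fin 3) v.comp) (w0 : Dˣ)) ∈ O := by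
  classical
  have hcen := hA.central
  have hsim := hA.simple
  have hfd : FiniteDimensional K D := FiniteDimensional.of_finrank_pos (by
    rw [hA.finrank_eq]
    norm_num)
  have hst := H519.star_smul_of_anis hA
  obtain ⟨q, hqT, -, φq, gq, hφq, -, hspan⟩ :=
    H519.exists_split_place hk hA (by norm_num) hP1.toFinset 0
  obtain ⟨v, hvT, -, φ, g, hφ, -, -⟩ :=
    H519.exists_split_place hk hA (by norm_num) (insert q hP1.toFinset) 0
  rw [Finset.mem_insert, not_or] at hvT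
  have hM : HasNC B q (GA f) := fun T hT δ hδ =>
    exists_noncentral hA (by norm_num) hφq hspan f B hT hδ
  obtain ⟨Tb, -, hTb⟩ := exists_big B (∅ : Finset (Place k))
  have hnc : ∃ u : UA D, u ∈ GA f ∧ ∃ x : D, ((u : Dˣ) : D) * x ≠ x * ((u : Dˣ) : D) := by
    obtain ⟨u, hu, -, hx⟩ := hM Tb hTb 1 one_pos
    exact ⟨u, hu, hx⟩
  let _ := nnfPlace v
  have hLM : LM f B v (⊤ : Subgroup (Matrix (Fin 3) (Fin 3) v.comp)ˣ) g :=
    lm_split hA (by norm_num) f B (φ := φ) hφ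
  have hN : (0 : ℝ) < N + 1 := by positivity
  have hd := dense_near hLM hA hvT.1 hM hP1.toFinset hqT hvT.2 (div_pos hε hN) hnc
  obtain ⟨S, hS⟩ : ∃ S, S = hLM.iota '' {u | u ∈ GA f ∧ ∀ w ∈ hP1.toFinset,
      Sm B w (ε / (N + 1)) (((u : Dˣ) : D) - 1)} := ⟨_, rfl⟩
  rw [← hS] at hd
  refine ⟨v, φ, g, hφ, fun h => hvT.2 (hP1.mem_toFinset.mpr h), fun α β hα hβ O hO => ?_⟩
  have hmem : ((⟨α, Subgroup.mem_top _⟩ : (⊤ : Subgroup (Matrix (Fin 3) (Fin 3) v.comp)ˣ)),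
      (⟨β, Subgroup.mem_top _⟩ : (⊤ : Subgroup (Matrix (Fin 3) (Fin 3) v.comp)ˣ))) ∈
      closure (S ×ˢ S) := by
    rw [closure_prod_eq]
    exact ⟨hd hα, hd hβ⟩
  have hO' : {p : (⊤ : Subgroup (Matrix (Fin 3) (Fin 3) v.comp)ˣ) ×
      (⊤ : Subgroup (Matrix (Fin 3) (Fin 3) v.comp)ˣ) |
      ((p.1 : (Matrix (Fin 3) (Fin 3) v.comp)ˣ), (p.2 : (Matrix (Fin 3) (Fin 3) v.comp)ˣ)) ∈ O} ∈
      𝓝 ((⟨α, Subgroup.mem_top _⟩ : (⊤ : Subgroup (Matrix (Fin 3) (Fin 3) v.comp)ˣ)),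
      (⟨β, Subgroup.mem_top _⟩ : (⊤ : Subgroup (Matrix (Fin 3) (Fin 3) v.comp)ˣ))) := by
    have hc : Continuous fun p : (⊤ : Subgroup (Matrix (Fin 3) (Fin 3) v.comp)ˣ) ×
      (⊤ : Subgroup (Matrix (Fin 3) (Fin 3) v.comp)ˣ) =>
        ((p.1 : (Matrix (Fin 3) (Fin 3) v.comp)ˣ), (p.2 : (Matrix (Fin 3) (Fin 3) v.comp)ˣ)) := by
      fun_prop
    exact hc.continuousAt.preimage_mem_nhds hO
  obtain ⟨⟨_, _⟩, hn, ha, hb⟩ := mem_closure_iff_nhds.mp hmem _ hO'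
  rw [hS] at ha hb
  obtain ⟨a, ⟨ha, haT⟩, rfl⟩ := ha
  obtain ⟨b, ⟨hb, hbT⟩, rfl⟩ := hb
  refine ⟨eGA f ⟨a, ha⟩, eGA f ⟨b, hb⟩, fun w hw => ?_, hn⟩
  exact ⟨na_of_sm hε (haT w (hP1.mem_toFinset.mpr hw)),
    na_of_sm hε (hbT w (hP1.mem_toFinset.mpr hw))⟩

/-- **The pair over function fields**, with separable elements. -/
theorem exists_pair_u (hk : IsGlobalFunctionField k) (hA : Anis k K D 3) (h2 : (2 : k) ≠ 0)
    (C : Cub K D) (f : D →ₐ[K] Matrix (Fin 3) (Fin 3) Ω) (B : Basis (Fin N) k D)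
    {P1 : Set (Place k)} (hP1 : P1.Finite) {ε : ℝ} (hε : 0 < ε) :
    ∃ g0 w0 : SUA f,
      (∀ v ∈ P1, na B v.abv (((g0 : Dˣ) : D) - 1) < ε ∧ na B v.abv (((w0 : Dˣ) : D) - 1) < ε) ∧
      dP C ((w0 : Dˣ) : D) ≠ 0 ∧
      ∀ x0 : D, x0 = ((g0 : Dˣ) : D) * ((w0 : Dˣ) : D) * ((g0 : Dˣ) : D)⁻¹ * ((w0 : Dˣ) : D)⁻¹ →
        x0 * ((w0 : Dˣ) : D) ≠ ((w0 : Dˣ) : D) * x0 ∧ C.T x0 + C.T (star x0) ≠ 6 ∧
          dP C x0 ≠ 0 := by
  have hcen := hA.central
  have hfd : FiniteDimensional K D := FiniteDimensional.of_finrank_pos (by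
    rw [hA.finrank_eq]
    norm_num)
  obtain ⟨v, φ, g, hφ, -, hv⟩ := exists_pair_open hk hA f B hP1 hε
  let _ := nnfPlace v
  have h2v : (2 : v.comp) ≠ 0 := by
    rw [← map_ofNat (algebraMap k v.comp) 2]
    exact (map_ne_zero _).mpr h2
  have h8v : (-8 : v.comp) ≠ 0 := by
    have e : (-8 : v.comp) = -(2 ^ 3) := by norm_num
    rw [e]
    exact neg_ne_zero.mpr (pow_ne_zero _ h2v)
  have hO : {p : (Matrix (Fin 3) (Fin 3) v.comp)ˣ × (Matrix (Fin 3) (Fin 3) v.comp)ˣ |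
      (tf p.1 p.2 ≠ 0 ∧ nf p.1 p.2 ≠ 0) ∧
        (df (p.2 : Matrix (Fin 3) (Fin 3) v.comp) ≠ 0 ∧ df (cf p.1 p.2) ≠ 0)} ∈
      𝓝 (mA v.comp, mB v.comp) := by
    refine IsOpen.mem_nhds (IsOpen.inter (IsOpen.inter ?_ ?_) (IsOpen.inter ?_ ?_))
      ⟨⟨?_, ?_⟩, ?_, ?_⟩
    · exact isOpen_compl_singleton.preimage continuous_tf
    · exact isOpen_compl_singleton.preimage continuous_nf
    · exact isOpen_compl_singleton.preimage
        (continuous_df.comp (Units.continuous_val.comp continuous_snd))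
    · exact isOpen_compl_singleton.preimage (continuous_df.comp continuous_cf)
    · change tf (mA v.comp) (mB v.comp) ≠ 0
      rw [tf_m]
      exact h8v
    · exact nf_m h2v
    · exact df_m h2v
    · exact df_c h2v
  obtain ⟨a, b, hab, ⟨ht, hn⟩, hdb, hdx⟩ := hv _ _ (det_mA _) (det_mB _) _ hO
  dsimp only at ht hn hdb hdx
  let _ : Algebra K v.comp := (φ : K →+* v.comp).toAlgebra
  let g' : D →ₐ[K] Matrix (Fin 3) (Fin 3) v.comp := { g with commutes' := hφ }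
  obtain ⟨hT, -, hadj⟩ := C.of_split hA.finrank_eq g'
  obtain ⟨gu, hgu⟩ : ∃ gu : Dˣ →* (Matrix (Fin 3) (Fin 3) v.comp)ˣ,
      gu = Units.map (g : D →* Matrix (Fin 3) (Fin 3) v.comp) := ⟨_, rfl⟩
  rw [← hgu] at ht hn hdb hdx
  have hgv : ∀ y : Dˣ, ((gu y : (Matrix (Fin 3) (Fin 3) v.comp)ˣ) :
      Matrix (Fin 3) (Fin 3) v.comp) = g' (y : D) := fun y => by rw [hgu]; rfl
  have hS : ∀ x, (g' x).adjugate.trace = algebraMap K v.comp (C.S x) := fun x => by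
    rw [hadj, hT]
    rfl
  have hsm : ∀ (c : K) (x : D), g' (c • x) = algebraMap K v.comp c • g' x := fun c x => by
    rw [map_smul, algebra_compatible_smul v.comp]
  have hdP : ∀ x : D, df (g' x) = g' (dP C x) := fun x => by
    rw [df, dP, map_add, map_sub, hsm, hsm, hsm, map_mul, map_one, hS, hT, map_ofNat, map_mul,
      map_ofNat]
  refine ⟨a, b, hab, fun h => hdb (by rw [hgv, hdP, h, map_zero]), fun x0 hx0 => ?_⟩
  have hx : x0 = (((a : Dˣ) * (b : Dˣ) * (a : Dˣ)⁻¹ * (b : Dˣ)⁻¹ : Dˣ) : D) := by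
    rw [hx0, Units.val_mul, Units.val_mul, Units.val_mul, Units.val_inv_eq_inv_val,
      Units.val_inv_eq_inv_val]
  have hxs : star x0 = (((b : Dˣ) * (a : Dˣ) * (b : Dˣ)⁻¹ * (a : Dˣ)⁻¹ : Dˣ) : D) := by
    have e1 : star (((a * b * a⁻¹ * b⁻¹ : SUA f) : Dˣ) : D) =
        ((((a * b * a⁻¹ * b⁻¹ : SUA f) : Dˣ)⁻¹ : Dˣ) : D) := by
      rw [Units.val_inv_eq_inv_val]
      exact eq_inv_of_mul_eq_one_right (a * b * a⁻¹ * b⁻¹ : SUA f).2.1
    have e2 : (((a * b * a⁻¹ * b⁻¹ : SUA f) : Dˣ) : D) = x0 := by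
      rw [hx]
      rfl
    rw [e2] at e1
    rw [e1]
    congr 1
    change ((a : Dˣ) * (b : Dˣ) * (a : Dˣ)⁻¹ * (b : Dˣ)⁻¹)⁻¹ = _
    group
  refine ⟨fun hcon => ?_, fun hcon => ?_, fun hcon => ?_⟩
  · apply hn
    have e1 : ((a : Dˣ) : D) * ((b : Dˣ) : D) * (((a : Dˣ)⁻¹ : Dˣ) : D) * ((b : Dˣ) : D) =
        ((b : Dˣ) : D) * (((a : Dˣ) : D) * ((b : Dˣ) : D) * (((a : Dˣ)⁻¹ : Dˣ) : D)) := by
      have h3 : x0 * ((b : Dˣ) : D) = ((b : Dˣ) : D) * x0 := hcon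
      have h4 : x0 * ((b : Dˣ) : D) =
          ((a : Dˣ) : D) * ((b : Dˣ) : D) * (((a : Dˣ)⁻¹ : Dˣ) : D) := by
        rw [hx, Units.val_mul, Units.val_mul, Units.val_mul, mul_assoc, Units.inv_mul, mul_one]
      rw [← h4, h3]
      conv_rhs => rw [← h3]
      rw [mul_assoc, h3]
    have e2 := congrArg g' e1
    rw [nf, ← map_inv, ← map_mul, ← map_mul, hgv, hgv, ← map_mul, ← map_mul, sub_eq_zero,
      Units.val_mul, Units.val_mul]
    exact e2
  · apply ht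
    rw [tf, ← map_inv, ← map_inv, ← map_mul, ← map_mul, ← map_mul, ← map_mul, ← map_mul,
      ← map_mul, hgv, hgv, hT, hT, ← hx, ← hxs, ← map_add, hcon, map_ofNat, sub_self]
  · apply hdx
    rw [cf, ← map_inv, ← map_inv, ← map_mul, ← map_mul, ← map_mul, hgv, ← hx, hdP, hcon, map_zero]

end Vale.Agent.P011.H74.PairU
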