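import Vale.Agent.P011.H74.U.LineU

/-!
# Reach over function fields of every odd characteristic
-/

open Module Filter Topology

set_option linter.unusedSectionVars false
set_option linter.unusedVariables false

namespace Vale.Agent.P011.H74.LineU

open Vale.Agent.P011.H305 Vale.Agent.P011.H738 Vale.Agent.P011.H271 Vale.Agent.P011.H182
  Vale.Agent.P011.H775 Vale.Agent.P011.H948 Vale.Agent.P011.H929.FF Vale.Agent.P011.H748
  Vale.Agent.P011.H3 Vale.Agent.P011.H756 Vale.Agent.P011.H961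
open Vale.Agent.P011.H929 (dP)

/-- The two line steps over a function field; the good places are kept for separable `u`. -/
def ReachU {k K D : Type} [Field k] [Field K] [StarRing K] [DivisionRing D] [StarRing D]
    [Algebra k K] [Algebra k D] [Algebra K D] [IsScalarTower k K D] {N : ℕ}
    (C : Cub K D) (B : Basis (Fin N) k D) (d : kˣ) : Prop :=
  ∀ x u : D, x * star x = 1 → C.N x = 1 → C.T x ≠ 3 → u * star u = 1 → C.T ((x - 1) * u) = 0 →
    ∀ P : Set (Place k), P.Finite → ∀ w : Place k → ℕ → D,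
    (∀ p ∈ P, FinalF.HasTgt C B p.abv x (w p)) → ∀ ε : ℝ, 0 < ε → ∀ J : ℕ,
    ∃ w1 : D, w1 * star w1 = 1 ∧ C.T ((x - 1) * w1) = 0 ∧
      (∀ p ∈ P, ∃ j, J ≤ j ∧ na B p.abv (w1 - w p j) < ε) ∧
      (dP C u ≠ 0 → ∀ v : Place k, v ∉ P → ¬ (∃ α : v.comp, α ^ 2 = algebraMap k v.comp d) →
        H929.FF.GoodInt B v u (x * u) → H929.FF.GoodInt B v w1 (x * w1))

variable {k K D : Type} [Field k] [GFF k] [Field K] [StarRing K]
    [DivisionRing D] [StarRing D] [Algebra k K] [Algebra k D] [Algebra K D] [IsScalarTower k K D]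
    {d : kˣ} {s : K} {N : ℕ}

/-- **Reach over a global function field** of odd characteristic. -/
theorem reachU (hk : IsGlobalFunctionField k) (hS : SetF k K D d s) (C : Cub K D)
    (h9 : finrank K D = 3 ^ 2) (B : Basis (Fin N) k D) : ReachU C B d := by
  intro x u hx hxN hx3 hu hT P hP w ht ε hε J
  have _ := hS.fin
  have _ := hS.cen
  have _ : Infinite k := Hey.gff_infinite k
  have h : SCub C := sCub_of C h9 hS.star_smul
  have h2K : (2 : K) ≠ 0 := two_K hS
  have hx1 : x - 1 ≠ 0 := by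
    intro h0
    apply hx3
    rw [sub_eq_zero.mp h0, C.T_one]
  have hu0 : u ≠ 0 := h.ne_zero_of_unitary hu
  have hz : (x - 1) * u ≠ 0 := mul_ne_zero hx1 hu0
  have hzs : star ((x - 1) * u) ≠ 0 := star_ne_zero.mpr hz
  obtain ⟨q, hqP, hq⟩ := CompsF.exists_split_place hk hS three_ne_zero h9 hP
  obtain ⟨w1, h1, h2, h4, h5⟩ := H756.reach_of_first (ab := fun v : Place k => v.abv) (C := C) h
    hS.star_algebraMap hS.two_ne hS.star_s hS.s_ne
    (fun c hc => (hS.fix c).mp hc) B hu hT hP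
    (V0 := {v : Place k | ¬ ∃ α : v.comp, α ^ 2 = algebraMap k v.comp d})
    (Good := fun v w => GoodInt B v w (x * w) ∧ dP C w ≠ 0)
    (fun v _ w l hl hg => ⟨goodInt_smulF l hg.1, by
      rw [dP_smul]
      exact smul_ne_zero (pow_ne_zero 2 (left_ne_zero_of_mul_eq_one hl)) hg.2⟩)
    (fun u' hu' hT' ξ hξ ε hε => by
      by_cases hdP : dP C u' ≠ 0
      · obtain ⟨y, h1, h2, h4, h5, h6⟩ := line_stepU hS C h9 B hx hxN hx3 hu' hT' hdP hq hP hqP ξ
          hξ hε
        exact ⟨y, h1, h2, h4, fun v hv hvP hg => ⟨h6 v hvP hv hg.1, h5⟩⟩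
      · obtain ⟨y, h1, h2, h4⟩ := line_step0 hS C h9 B hx3 hu' hT' hP ξ hξ hε
        exact ⟨y, h1, h2, h4, fun v hv hvP hg => absurd hg.2 hdP⟩)
    (fun l hl ε hε => H74.CompsF.k1_approx B hS hP l hl hε) w ht
    (fun p hp κ hκ b hb htg => H339.first_step h hS.star_algebraMap h2K
      (ω := hyperfilter ℕ) hb hx hu (nd_star h hx hxN hx3 hu hT)
      (H73.ND.nd C hS.star_s hS.s_ne h2K hS.star_algebraMap hS.star_smul h9 hS.cen hzs)
      (by
        obtain ⟨ξ, h1, h2, h4⟩ := H158.N4.exists_dir' hS C h9 hz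
        exact ⟨ξ, h1, h2, h4⟩) htg) hε J
  exact ⟨w1, h1, h2, h4, fun hdP v hvP hv hg => (h5 v hv hvP ⟨hg, hdP⟩).1⟩

end Vale.Agent.P011.H74.LineU
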