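import Vale.Agent.P011.H74.U.FinalU2
import Vale.Agent.P011.H74.U.S3bU
import Vale.Agent.P011.H871.U.FinalPI
import Vale.Agent.P011.H271.S3xEnd
import Vale.Agent.P011.H73.AdjAF
import Vale.Agent.P011.H775.CubEx
import Vale.Agent.P011.H305.Three
import Vale.Agent.P011.H74.OddDiv
import Vale.Agent.P011.H271.GF

/-!
# Degree three over global function fields of every odd characteristic

The solvable step, and the conjecture for all anisotropic outer forms of degree three.
-/

open Module TensorProduct Topology

set_option linter.unusedSectionVars false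

namespace Vale.Agent.P011.H74

section solv

open Vale.Agent.P011.H738 Vale.Agent.P011.H271 Vale.Agent.P011.H775 Vale.Agent.P011.H305

variable {k K D Ω : Type} [Field k] [Field K] [StarRing K] [DivisionRing D] [StarRing D]
  [Algebra k K] [Algebra k D] [Algebra K D] [IsScalarTower k K D] [StarModule K D] {N : ℕ}
  [Field Ω] [Algebra K Ω]

/-- **The solvable step for division algebras of degree three** over a global function field of
odd characteristic. -/
theorem solvAtF_threeU (hk : IsGlobalFunctionField k) (hA : Anis k K D 3) (h2 : (2 : k) ≠ 0)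
    (f : D →ₐ[K] Matrix (Fin 3) (Fin 3) Ω) (B : Basis (Fin N) k D) :
    SolvAtF k K f B := by
  have hgff : GFF k := gff_of_isGlobal hk
  obtain ⟨d, s, hS⟩ := exists_setF hA three_ne_zero h2
  have h9 := hA.finrank_eq
  have hfin := hS.fin
  have hcen := hS.cen
  obtain ⟨C⟩ := exists_cub (K := K) (D := D) h9
  exact FinalU.final2_u hk hS h9 C f B (H871.U.partIU hS h9 C B)
    (fun F hF hd g0 hg0 ε hε => H73.AdjA.adjA_ff hS Nat.prime_three h9 B hF hd hg0 hε)
    (S3x.s3a_ffU hk hS h9 C f B) (S3U.s3b_ffU hk hS h9 C f B)

end solv

section conj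

open Vale.Agent.P011.H738 (Place SUA Anis IsGlobalFunctionField)
open Vale.Agent.P011.H732F (GK HA IsDiagonal IsOpenPreimage Adiv)

/-- **The conjecture** for `SU_1(D, *)`, `D` a division algebra of degree three over a global
function field of odd characteristic: every normal subgroup of finite index is the preimage of an
open subgroup. -/
theorem conj_three_ffU {k K D Ω : Type} [Field k] [Field K] [StarRing K] [DivisionRing D]
    [StarRing D] [Algebra k K] [Algebra k D] [Algebra K D] [IsScalarTower k K D] [StarModule K D]
    [Field Ω] [Algebra K Ω] (hk : IsGlobalFunctionField k) (hA : Anis k K D 3)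
    (h2 : (2 : k) ≠ 0) (f : D →ₐ[K] Matrix (Fin 3) (Fin 3) Ω) :
    ∃ δ : GK f →* HA D 3 (Adiv k K D), IsDiagonal δ ∧ DenseRange δ ∧
      ∀ M : Subgroup (GK f), M.Normal → M.index ≠ 0 → IsOpenPreimage δ M := by
  have hfk : FiniteDimensional k K := (H519.quad hA.fixed hA.star_ne).1
  have hfD : FiniteDimensional K D := FiniteDimensional.of_finrank_pos (by
    rw [hA.finrank_eq]
    positivity)
  have hfkD : FiniteDimensional k D := Module.Finite.trans K D
  exact H305.conj_of_solvF hk hA le_rfl f (finBasis k D)
    (solvAtF_threeU hk hA h2 f (finBasis k D))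

/-- **The conjecture for all anisotropic outer forms of degree three** over a global function
field of odd characteristic. -/
theorem conj_three_ff_ringU {k K A Ω : Type} [Field k] [Field K] [StarRing K] [Ring A]
    [StarRing A] [Algebra k K] [Algebra k A] [Algebra K A] [IsScalarTower k K A] [StarModule K A]
    [Field Ω] [Algebra K Ω] (hk : IsGlobalFunctionField k) (hA : Anis k K A 3)
    (h2 : (2 : k) ≠ 0) (f : A →ₐ[K] Matrix (Fin 3) (Fin 3) Ω) :
    ∃ δ : GK f →* HA A 3 (Adiv k K A), IsDiagonal δ ∧ DenseRange δ ∧
      ∀ M : Subgroup (GK f), M.Normal → M.index ≠ 0 → IsOpenPreimage δ M := by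
  have hgff : H271.GFF k := H271.gff_of_isGlobal hk
  have hsim := hA.simple
  let _ : DivisionRing A := DivisionRing.ofIsUnitOrEqZero fun x => by
    by_cases hx : x = 0
    · exact Or.inr hx
    · exact Or.inl (isUnit_of_odd hA (by decide) hx)
  exact conj_three_ffU hk hA h2 f

end conj

end Vale.Agent.P011.H74
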