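import Vale.Agent.P011.H74.FinalF2
import Vale.Agent.P011.H74.U.FinalU

/-!
# The solvable step in degree three over function fields of every odd characteristic

Targets and reach plugged in.
-/

open Module Topology Filter
open scoped commutatorElement

set_option linter.unusedSectionVars false

namespace Vale.Agent.P011.H74.FinalU

open Vale.Agent.P011.H738 Vale.Agent.P011.H271 Vale.Agent.P011.H775 Vale.Agent.P011.H305
  Vale.Agent.P011.H3 Vale.Agent.P011.H74.FinalF
open Vale.Agent.P011.H182 (na Ig na_nonneg na_add_le na_sub_le na_zero na_pos na_sub_comm)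
open Vale.Agent.P011.H929 (dP)

section tgt

variable {k K D : Type} [Field k] [GFF k] [Field K] [StarRing K] [DivisionRing D] [StarRing D]
  [Algebra k K] [Algebra k D] [Algebra K D] [IsScalarTower k K D] {N : ℕ} {d : kˣ} {s : K}

theorem tnear_u (hS : SetF k K D d s) (h9 : finrank K D = 3 ^ 2) (C : Cub K D)
    (B : Basis (Fin N) k D) {x0 w0 g0 : D} (hg : g0 * star g0 = 1) (hw : w0 * star w0 = 1)
    (hx0 : x0 = g0 * w0 * g0⁻¹ * w0⁻¹) (hN1 : x0 * w0 ≠ w0 * x0)
    (hdP : dP C w0 ≠ 0) (v : Place k) :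
    TNear C B v.abv x0 w0 g0 := by
  have hfin := hS.fin
  have hcen := hS.cen
  have hsc := H948.sCub_of C h9 hS.star_smul
  have hg0 : g0 ≠ 0 := left_ne_zero_of_mul_eq_one hg
  have hw0 : w0 ≠ 0 := left_ne_zero_of_mul_eq_one hw
  have hsg : star g0 = g0⁻¹ := eq_inv_of_mul_eq_one_right hg
  have hsw : star w0 = w0⁻¹ := eq_inv_of_mul_eq_one_right hw
  have hx : x0 * star x0 = 1 := by
    rw [hx0, star_mul, star_mul, star_mul, star_inv₀, star_inv₀, hsg, hsw, inv_inv, inv_inv]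
    calc g0 * w0 * g0⁻¹ * w0⁻¹ * (w0 * (g0 * (w0⁻¹ * g0⁻¹))) =
        g0 * w0 * g0⁻¹ * (w0⁻¹ * w0) * g0 * w0⁻¹ * g0⁻¹ := by simp only [mul_assoc]
      _ = g0 * w0 * (g0⁻¹ * g0) * w0⁻¹ * g0⁻¹ := by
          rw [inv_mul_cancel₀ hw0, mul_one]
          simp only [mul_assoc]
      _ = g0 * (w0 * w0⁻¹) * g0⁻¹ := by
          rw [inv_mul_cancel₀ hg0, mul_one]
          simp only [mul_assoc]
      _ = 1 := by rw [mul_inv_cancel₀ hw0, mul_one, mul_inv_cancel₀ hg0]
  have hwK : w0 ∉ Set.range (algebraMap K D) := by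
    rintro ⟨c, rfl⟩
    exact hN1 (Algebra.commutes c x0).symm
  have hxw : x0 * w0 = g0 * w0 * g0⁻¹ := by
    rw [hx0, mul_assoc, inv_mul_cancel₀ hw0, mul_one]
  have hgc : x0 * w0 * g0 = g0 * w0 := by
    rw [hxw, mul_assoc, inv_mul_cancel₀ hg0, mul_one]
  have hT0 : C.T ((x0 - 1) * w0) = 0 := by
    rw [sub_mul, one_mul, map_sub, hxw, GlobF.T_conj C hg0, sub_self]
  have hx1 : x0 ≠ 1 := by
    rintro h
    exact hN1 (by rw [h, one_mul, mul_one])
  have hind : ∀ c : K, (x0 - 1) * w0 ≠ c • star ((x0 - 1) * w0) := by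
    intro c hc
    have h1 := H279.StarF.indep_of_N1 hS h9 hx hw hN1 1 (-c) (by
      rw [one_smul, neg_smul, ← hc, add_neg_cancel])
    exact one_ne_zero h1.1
  obtain ⟨ι, _, b, hb⟩ := exists_comps hS B v
  have hTx : ∃ x, C.T x ≠ 0 := LineU.exists_T_ne C hdP
  intro η hη
  obtain ⟨γ, hγ, h⟩ := H14.target_near hsc hS.star_algebraMap hS.two_ne hTx B v.abv hb hx hw hg
    hT0 hgc hdP hind (H505.nonspec_global C hwK hx1 hg0 hgc) hη
  refine ⟨γ, hγ, fun x hx' hN hxx => ?_⟩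
  obtain ⟨w, hw', δ, hδ, h'⟩ := h x hx' hN hxx
  refine ⟨w, ⟨ι, inferInstance, b, hb, hw'⟩, δ, hδ, fun j w1 h1 h2 h3 h4 h5 => ?_⟩
  rw [h5]
  exact h' j w1 h1 h2 h3

end tgt

variable {k K D Ω : Type} [Field k] [GFF k] [Field K] [StarRing K] [DivisionRing D] [StarRing D]
  [Algebra k K] [Algebra k D] [Algebra K D] [IsScalarTower k K D] [StarModule K D] {N : ℕ}
  [Field Ω] [Algebra K Ω] {d : kˣ} {s : K}

/-- **The solvable step in degree three**, every odd characteristic, from Part I, the adjustment of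
intertwiners and the two statements about reduced norms. -/
theorem final2_u (hk : IsGlobalFunctionField k) (hS : SetF k K D d s)
    (h9 : finrank K D = 3 ^ 2) (C : Cub K D) (f : D →ₐ[K] Matrix (Fin 3) (Fin 3) Ω)
    (B : Basis (Fin N) k D) (hpart : PartIU C B) (hadj : AdjAF K B d)
    (h3a : StarF.S3a f B (Adiv k K D)) (h3b : StarF.S3b f B (Adiv k K D)) :
    SolvAtF k K f B := by
  have hfin := hS.fin
  have hcen := hS.cen
  have hsc := H948.sCub_of C h9 hS.star_smul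
  refine final_u hk hS h9 C f B (LineU.reachU hk hS C h9 B) hpart hadj h3a h3b
    (fun x0 h6 v => ?_)
    (fun x0 w0 g0 hg hw _ _ hx hN1 _ hdw v => tnear_u hS h9 C B hg hw hx hN1 hdw v)
    fun x hx hN v hv hL => tloc hS h9 C B hx hN v hv hL
  obtain ⟨δ, hδ, h⟩ := H14.T_ne_three hsc hS.star_algebraMap B v.abv h6
  exact ⟨δ, hδ, fun x _ hx => h x hx⟩

end Vale.Agent.P011.H74.FinalU
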