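import Vale.Agent.P011.H756.LineG
import Vale.Agent.P011.H756.LineF
import Vale.Agent.P011.H756.Reach
import Vale.Agent.P011.H158.N4F3
import Vale.Agent.P011.H74.FinalF
import Vale.Agent.P011.H73.ND
import Vale.Agent.P011.H3.Step1
import Vale.Agent.P011.H961.NdS
import Vale.Agent.P011.H339.First

/-!
# The line step and the reach over function fields of every odd characteristic

The line step from a separable base point; the result is separable.
-/

open Module Filter Topology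

set_option linter.unusedSectionVars false
set_option linter.unusedVariables false

namespace Vale.Agent.P011.H74.LineU

open Vale.Agent.P011.H305 Vale.Agent.P011.H738 Vale.Agent.P011.H271 Vale.Agent.P011.H182
  Vale.Agent.P011.H775 Vale.Agent.P011.H948 Vale.Agent.P011.H929.FF Vale.Agent.P011.H748
  Vale.Agent.P011.H3 Vale.Agent.P011.H756
open Vale.Agent.P011.H929 (dP)

section line

variable {k K D : Type} [Field k] [Field K] [StarRing K] [DivisionRing D] [StarRing D]
  [Algebra k K] [Algebra k D] [Algebra K D] [IsScalarTower k K D] {C : Cub K D} {N : ℕ} {ι : Type}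

/-- **The line step.** -/
theorem line_step_gen2 {ab : ι → AbsoluteValue k ℝ} (hWA : WA ab) (hNT : NT ab) (h : SCub C)
    (hk : ∀ c : k, star (algebraMap k K c) = algebraMap k K c) (h20 : (2 : k) ≠ 0)
    (B : Basis (Fin N) k D) {x u b : D} (hu : u * star u = 1) (hT : C.T ((x - 1) * u) = 0)
    (hb : star b = b) (h8 : C.T ((x - 1) * u * b) = 0) (h8' : C.T ((x - 1) * u * C.adj b) ≠ 0)
    {V0 : Set ι} {Good : ι → D → Prop}
    (hopen : ∀ v ∈ V0, ∀ l : K, l * star l = 1 → Good v u →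
      ∃ δ : ℝ, 0 < δ ∧ ∀ w : D, w * star w = 1 → C.T ((x - 1) * w) = 0 →
        na B (ab v) (w - l • u) < δ → Good v w)
    (hline : ∃ a : D, star a = a ∧ ∀ e : D, star e = e →
      {r : k | ¬ ∃ S : Set ι, S.Finite ∧ ∀ v ∈ V0, v ∉ S → ∀ t : k,
        be C ((x - 1) * u) (e + r • (a - e) + t • b) ≠ 0 →
        Good v (u * star (be C ((x - 1) * u) (e + r • (a - e) + t • b)) *
          (be C ((x - 1) * u) (e + r • (a - e) + t • b))⁻¹)}.Finite)
    {P : Set ι} (hP : P.Finite) (ξ : ι → D)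
    (hξ : ∀ p ∈ P, star (ξ p) = ξ p ∧ be C ((x - 1) * u) (ξ p) ≠ 0) {ε : ℝ} (hε : 0 < ε) :
    ∃ w : D, w * star w = 1 ∧ C.T ((x - 1) * w) = 0 ∧
      (∀ p ∈ P, na B (ab p) (w - u * star (be C ((x - 1) * u) (ξ p)) *
        (be C ((x - 1) * u) (ξ p))⁻¹) < ε) ∧
      ∀ v ∈ V0, v ∉ P → Good v u → Good v w := by
  classical
  have hst : ∀ (c : k) (x : D), star (c • x) = c • star x := by
    intro c x
    rw [← algebraMap_smul K c x, h.smul, hk, algebraMap_smul]
  rcases P.eq_empty_or_nonempty with rfl | hPne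
  · exact ⟨u, hu, hT, fun p hp => absurd hp (Set.notMem_empty p), fun v _ _ hv => hv⟩
  set z := (x - 1) * u with hz
  -- the neighbourhoods of the targets
  have hnb : ∀ p, ∃ δ : ℝ, 0 < δ ∧ (p ∈ P → ∀ y : D, na B (ab p) (y - ξ p) < δ → be C z y ≠ 0 ∧
      na B (ab p) (u * star (be C z y) * (be C z y)⁻¹ -
        u * star (be C z (ξ p)) * (be C z (ξ p))⁻¹) < ε) := by
    intro p
    by_cases hp : p ∈ P
    · obtain ⟨δ, hδ, h1⟩ := pt_near h20 hst B (ab p) z u (hξ p hp).2 hε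
      exact ⟨δ, hδ, fun _ => h1⟩
    · exact ⟨1, one_pos, fun h => absurd h hp⟩
  choose δ hδ hδP using hnb
  obtain ⟨δ0, hδ0, hδ0P⟩ := exists_min hP δ fun p _ => hδ p
  obtain ⟨a, ha, hline⟩ := hline
  obtain ⟨η, hη, hηP⟩ := wa_sym hWA h20 hst B hP ξ (fun p hp => (hξ p hp).1)
    (show (0 : ℝ) < δ0 / 3 by linarith)
  -- the choice of the line
  obtain ⟨δ1, hδ1, hδ1P⟩ := exists_min hP (fun p => δ0 / 3 / (na B (ab p) (a - η) + 1))
    fun p _ => div_pos (by linarith) (by have := na_nonneg B (ab p) (a - η); linarith)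
  obtain ⟨r, hrF, hrP⟩ := small_avoid hWA hNT hP hPne (hline η hη) hδ1
  rw [Set.mem_ofPred_eq, not_not] at hrF
  obtain ⟨S, hS, hSv⟩ := hrF
  set e1 := η + r • (a - η) with he1
  have he1s : star e1 = e1 := by rw [he1, star_add, hst, star_sub, hη, ha]
  have hr2 : ∀ p ∈ P, na B (ab p) (e1 - η) < δ0 / 3 := by
    intro p hp
    rw [he1, add_sub_cancel_left, na_smul]
    have h1 := (hrP p hp).trans_le (hδ1P p hp)
    have h2 := na_nonneg B (ab p) (a - η)
    have h3 := (ab p).nonneg r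
    rw [lt_div_iff₀ (by linarith)] at h1
    nlinarith
  -- the choice of the point on the line
  set l : K := star (C.T (z * C.adj b)) * (C.T (z * C.adj b))⁻¹ with hl
  have hl1 : l * star l = 1 := by
    have h8s : star (C.T (z * C.adj b)) ≠ 0 := fun h0 => h8' (star_eq_zero.1 h0)
    rw [hl, star_mul', star_star, star_inv₀]
    field_simp
  have hlu : (l • u) * star (l • u) = 1 := by
    rw [h.smul, smul_mul_smul_comm, hu, hl1, one_smul]
  have hlT : C.T ((x - 1) * (l • u)) = 0 := by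
    rw [mul_smul_comm, map_smul, ← hz, hT, smul_zero]
  have hM : ∀ v, ∃ M : ℝ, v ∈ V0 → Good v u → ∀ t : k, M < ab v t → ∀ w : D, w * star w = 1 →
      C.T ((x - 1) * w) = 0 →
      w = u * star (be C z (e1 + t • b)) * (be C z (e1 + t • b))⁻¹ → Good v w := by
    intro v
    by_cases hv : v ∈ V0 ∧ Good v u
    · obtain ⟨δ2, hδ2, h1⟩ := hopen v hv.1 l hl1 hv.2
      obtain ⟨M, hM⟩ := pt_infty h hk h20 B (ab v) z u h8 h8' e1 hδ2
      refine ⟨M, fun _ _ t ht w hw hTw hwe => h1 w hw hTw ?_⟩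
      rw [hwe]
      exact (hM t ht).2
    · exact ⟨0, fun h1 h2 => absurd ⟨h1, h2⟩ hv⟩
  choose M hM using hM
  choose T hTM using fun v => hNT.big v (M v + 1)
  obtain ⟨δ3, hδ3, hδ3P⟩ := exists_min hP (fun p => δ0 / 3 / (na B (ab p) b + 1))
    fun p _ => div_pos (by linarith) (by have := na_nonneg B (ab p) b; linarith)
  obtain ⟨t, ht⟩ := hWA (P ∪ S) (hP.union hS) (fun v => if v ∈ P then 0 else T v) (min 1 δ3)
    (lt_min one_pos hδ3)
  have ht2 : ∀ p ∈ P, na B (ab p) (t • b) < δ0 / 3 := by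
    intro p hp
    have h1 := ht p (Or.inl hp)
    rw [if_pos hp, sub_zero] at h1
    have h4 := (h1.trans_le (min_le_right _ _)).trans_le (hδ3P p hp)
    rw [na_smul]
    have h2 := na_nonneg B (ab p) b
    have h3 := (ab p).nonneg t
    rw [lt_div_iff₀ (by linarith)] at h4
    nlinarith
  have hclose : ∀ p ∈ P, na B (ab p) ((e1 + t • b) - ξ p) < δ0 := by
    intro p hp
    have e : (e1 + t • b) - ξ p = (e1 - η) + ((η - ξ p) + t • b) := by abel
    rw [e]
    have h1 := na_add_le B (ab p) (e1 - η) ((η - ξ p) + t • b)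
    have h2 := na_add_le B (ab p) (η - ξ p) (t • b)
    have h3 := hr2 p hp
    have h4 := hηP p hp
    have h5 := ht2 p hp
    linarith
  obtain ⟨p0, hp0⟩ := hPne
  have hbe : be C z (e1 + t • b) ≠ 0 :=
    (hδP p0 hp0 _ ((hclose p0 hp0).trans_le (hδ0P p0 hp0))).1
  have hsym : star (e1 + t • b) = e1 + t • b := by rw [star_add, hst, he1s, hb]
  have hwu := pt_unitary h hu (comm_star_be h (z := z) hsym) hbe
  have hwT := pt_T h hT hsym hbe
  refine ⟨_, hwu, hwT, fun p hp => (hδP p hp _ ((hclose p hp).trans_le (hδ0P p hp))).2, ?_⟩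
  intro v hv hvP hvu
  by_cases hvS : v ∈ S
  · refine hM v hv hvu t ?_ _ hwu hwT rfl
    have h1 := ht v (Or.inr hvS)
    rw [if_neg hvP] at h1
    have h2 := h1.trans_le (min_le_left _ _)
    have h3 := (ab v).add_le (T v - t) t
    rw [sub_add_cancel, (ab v).map_sub] at h3
    have h4 := hTM v
    linarith
  · exact hSv v hv hvS t hbe

end line

/-- Separable elements are open. -/
theorem dP_open {k K D : Type} [Field k] [Field K] [StarRing K] [DivisionRing D] [StarRing D]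
    [Algebra k K] [Algebra k D] [Algebra K D] [IsScalarTower k K D] {N : ℕ} (h2 : (2 : k) ≠ 0)
    (B : Basis (Fin N) k D) (a : AbsoluteValue k ℝ) (C : Cub K D) {w0 : D} (h : dP C w0 ≠ 0) :
    ∃ δ : ℝ, 0 < δ ∧ ∀ w : D, na B a (w - w0) < δ → dP C w ≠ 0 := by
  have hc : H929.Cts B a w0 w0 fun _ w => dP C w := by
    have h1 : H929.Cts B a w0 w0 fun _ w => w := H929.Cts.snd
    have h3 := ((h1.mul h1).add (h1.mul (h1.sub (h1.lin (Tm k C))))).add (cts_adj (K := K) (C := C) h2 h1)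
    have e : (fun _ w : D => dP C w) = fun _ w : D =>
        w * w + w * (w - Tm k C w) + C.adj w := by
      funext _ w
      rw [Tm_apply, H929.dP_eq]
    rw [e]
    exact h3
  obtain ⟨δ, hδ, h1⟩ := hc _ (na_pos B a h)
  refine ⟨δ, hδ, fun w hw hcon => ?_⟩
  have h3 := h1 w w hw hw
  dsimp only at h3
  rw [hcon, zero_sub, na_neg] at h3
  exact lt_irrefl _ h3

theorem dP_smul {K D : Type} [Field K] [DivisionRing D] [Algebra K D] (C : Cub K D) (c : K)
    (w : D) : dP C (c • w) = c ^ 2 • dP C w := by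
  rw [dP, dP, C.S_smul, map_smul, smul_eq_mul, smul_mul_smul_comm]
  module

/-- If some element is separable, the trace is not zero. -/
theorem exists_T_ne {K D : Type} [Field K] [DivisionRing D] [Algebra K D] (C : Cub K D) {w : D}
    (h : dP C w ≠ 0) : ∃ x, C.T x ≠ 0 := by
  by_contra hcon
  push Not at hcon
  apply h
  have h1 : C.S w = 0 := hcon _
  rw [dP, h1, hcon, mul_zero, zero_smul, zero_smul, sub_zero, add_zero, ← C.T_one, hcon, zero_smul]

variable {k K D : Type} [Field k] [GFF k] [Field K] [StarRing K]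
    [DivisionRing D] [StarRing D] [Algebra k K] [Algebra k D] [Algebra K D] [IsScalarTower k K D]
    {d : kˣ} {s : K} {N : ℕ}

/-- **The line step over a global function field**, from a separable base point. -/
theorem line_stepU (hS : SetF k K D d s) (C : Cub K D)
    (h9 : finrank K D = 3 ^ 2) (B : Basis (Fin N) k D) {x u : D} (hx : x * star x = 1)
    (hxN : C.N x = 1) (hx3 : C.T x ≠ 3) (hu : u * star u = 1) (hT : C.T ((x - 1) * u) = 0)
    (hdP : dP C u ≠ 0) {q : Place k} (hq : ∃ α : q.comp, α ^ 2 = algebraMap k q.comp d)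
    {P : Set (Place k)} (hP : P.Finite) (hqP : q ∉ P) (ξ : Place k → D)
    (hξ : ∀ p ∈ P, star (ξ p) = ξ p ∧ be C ((x - 1) * u) (ξ p) ≠ 0) {ε : ℝ} (hε : 0 < ε) :
    ∃ w : D, w * star w = 1 ∧ C.T ((x - 1) * w) = 0 ∧
      (∀ p ∈ P, na B p.abv (w - u * star (be C ((x - 1) * u) (ξ p)) *
        (be C ((x - 1) * u) (ξ p))⁻¹) < ε) ∧ dP C w ≠ 0 ∧
      ∀ v ∉ P, (¬ ∃ α : v.comp, α ^ 2 = algebraMap k v.comp d) →
        GoodInt B v u (x * u) → GoodInt B v w (x * w) := by
  have _ := hS.fin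
  have _ := hS.cen
  have h : SCub C := sCub_of C h9 hS.star_smul
  have hu0 : u ≠ 0 := h.ne_zero_of_unitary hu
  have huc := not_range_of_T hx3 hu0 hT
  have hx1 : x - 1 ≠ 0 := by
    intro h0
    apply hx3
    rw [sub_eq_zero.mp h0, C.T_one]
  have hne : ∀ l : K, l * star l = 1 → dP C (l • u) ≠ 0 := fun l hl => by
    rw [dP_smul]
    exact smul_ne_zero (pow_ne_zero 2 (left_ne_zero_of_mul_eq_one hl)) hdP
  obtain ⟨b, hb, h8, h8'⟩ := H158.N4.exists_dir' hS C h9 (mul_ne_zero hx1 hu0)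
  obtain ⟨a, ha, hfa⟩ := H158.N4.n4' hS C h9 B hx hxN hu huc hdP hT hb h8 h8'
  obtain ⟨w, hw, hwT, hwP, hwV⟩ := line_step_gen2 (wa_place (k := k)) nt_place h
    hS.star_algebraMap hS.two_ne B hu hT hb h8 h8'
    (V0 := {v : Place k | v = q ∨ ¬ ∃ α : v.comp, α ^ 2 = algebraMap k v.comp d})
    (Good := fun v w => (v = q → dP C w ≠ 0) ∧ (v ≠ q → GoodInt B v w (x * w)))
    (fun v hv l hl hg => by
      obtain ⟨δ1, hδ1, h1⟩ := dP_open hS.two_ne B v.abv C (hne l hl)
      by_cases hvq : v = q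
      · exact ⟨δ1, hδ1, fun w hw hTw hn => ⟨fun _ => h1 w hn, fun h => absurd hvq h⟩⟩
      · obtain ⟨δ, hδ, h2⟩ := H465.OpenF.goodInt_open' hS.two_ne C B v (hne l hl)
          (goodInt_smulF l (hg.2 hvq))
        refine ⟨δ, hδ, fun w hw hTw hn => ⟨fun h => absurd h hvq, fun _ => ?_⟩⟩
        obtain ⟨s1, s2, s3⟩ := h.same hx hxN hw hTw
        exact h2 w hn s1 s2 s3)
    ⟨a, ha, fun e he => (hfa e he).subset fun r hr hcon => hr (by
      obtain ⟨S, hS', hSv⟩ := hcon
      refine ⟨insert q S, hS'.insert q, fun v hv hvS t _ => ?_⟩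
      rw [Set.mem_insert_iff, not_or] at hvS
      exact ⟨fun h => absurd h hvS.1, fun _ => (hSv v hvS.2
        (hv.resolve_left hvS.1) t).2⟩)⟩ hP ξ hξ hε
  refine ⟨w, hw, hwT, hwP, ?_, fun v hvP hv hg => ?_⟩
  · exact (hwV q (Or.inl rfl) hqP ⟨fun _ => hdP, fun h => absurd rfl h⟩).1 rfl
  · have hvq : v ≠ q := fun h => hv (h ▸ hq)
    exact (hwV v (Or.inr hv) hvP ⟨fun h => absurd h hvq, fun _ => hg⟩).2 hvq

/-- The line step over a global function field, from any base point. -/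
theorem line_step0 (hS : SetF k K D d s) (C : Cub K D)
    (h9 : finrank K D = 3 ^ 2) (B : Basis (Fin N) k D) {x u : D}
    (hx3 : C.T x ≠ 3) (hu : u * star u = 1) (hT : C.T ((x - 1) * u) = 0)
    {P : Set (Place k)} (hP : P.Finite) (ξ : Place k → D)
    (hξ : ∀ p ∈ P, star (ξ p) = ξ p ∧ be C ((x - 1) * u) (ξ p) ≠ 0) {ε : ℝ} (hε : 0 < ε) :
    ∃ w : D, w * star w = 1 ∧ C.T ((x - 1) * w) = 0 ∧
      ∀ p ∈ P, na B p.abv (w - u * star (be C ((x - 1) * u) (ξ p)) *
        (be C ((x - 1) * u) (ξ p))⁻¹) < ε := by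
  have _ := hS.fin
  have _ := hS.cen
  have h : SCub C := sCub_of C h9 hS.star_smul
  have hu0 : u ≠ 0 := h.ne_zero_of_unitary hu
  have hx1 : x - 1 ≠ 0 := by
    intro h0
    apply hx3
    rw [sub_eq_zero.mp h0, C.T_one]
  obtain ⟨b, hb, h8, h8'⟩ := H158.N4.exists_dir' hS C h9 (mul_ne_zero hx1 hu0)
  obtain ⟨w, hw, hwT, hwP, -⟩ := line_step_gen2 (wa_place (k := k)) nt_place h
    hS.star_algebraMap hS.two_ne B hu hT hb h8 h8' (V0 := (∅ : Set (Place k)))
    (Good := fun _ _ => True) (fun v hv => absurd hv (Set.notMem_empty v))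
    ⟨0, star_zero D, fun e he => by
      convert Set.finite_empty
      ext r
      simp only [Set.mem_ofPred_eq, Set.mem_empty_iff_false, iff_false, not_not]
      exact ⟨∅, Set.finite_empty, fun v hv => absurd hv (Set.notMem_empty v)⟩⟩ hP ξ hξ hε
  exact ⟨w, hw, hwT, hwP⟩

end Vale.Agent.P011.H74.LineU
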