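import Vale.Agent.P011.H74.U.PmU
import Vale.Agent.P011.H518.PairF
import Vale.Agent.P011.H738.LocX3
import Vale.Agent.P011.H756.LineF

/-!
# Continuity of the coefficients of the reduced characteristic polynomial

Every characteristic different from two.
-/

open Module MvPolynomial Topology

set_option linter.unusedSectionVars false

namespace Vale.Agent.P011.H74.S3U

open Vale.Agent.P011.H775 Vale.Agent.P011.H271.S3 Vale.Agent.P011.H738 Vale.Agent.P011.H271
  Vale.Agent.P011.H698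
open Vale.Agent.P011.H487 (Pm)
open Vale.Agent.P011.H518 (Abv)

section pm

variable {k K : Type} [Field k] [Field K] [Algebra k K] {m : ℕ} {L : Type} [NormedField L]

/-- A polynomial map extends to a continuous map. -/
theorem pm_cont (φ : K →+* L) {F : (Fin m → k) → K} (hF : Pm F) :
    ∃ G : (Fin m → L) → L, Continuous G ∧
      ∀ x : Fin m → k, G (fun i => φ (algebraMap k K (x i))) = φ (F x) := by
  refine Pm.ind (P := fun F : (Fin m → k) → K => ∃ G : (Fin m → L) → L, Continuous G ∧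
      ∀ x : Fin m → k, G (fun i => φ (algebraMap k K (x i))) = φ (F x)) (fun p w => ?_)
    (fun F G hF hG h3 h4 => ?_) hF
  · refine ⟨fun y => MvPolynomial.eval y (MvPolynomial.map (φ.comp (algebraMap k K)) p) * φ w,
      (MvPolynomial.continuous_eval _).mul continuous_const, fun x => ?_⟩
    change MvPolynomial.eval (fun i => φ (algebraMap k K (x i)))
      (MvPolynomial.map (φ.comp (algebraMap k K)) p) * φ w = φ (MvPolynomial.eval x p • w)
    rw [Algebra.smul_def, map_mul]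
    congr 1
    have e : (fun i => φ (algebraMap k K (x i))) = (φ.comp (algebraMap k K)) ∘ x := rfl
    rw [e, ← MvPolynomial.map_eval]
    rfl
  · obtain ⟨G1, h1, h1'⟩ := h3
    obtain ⟨G2, h2, h2'⟩ := h4
    refine ⟨fun y => G1 y + G2 y, h1.add h2, fun x => ?_⟩
    change G1 _ + G2 _ = φ (F x + G x)
    rw [h1', h2', map_add]

/-- Polynomial maps are continuous. -/
theorem pm_near (φ : K →+* L) {F : (Fin m → k) → K} (hF : Pm F) (x0 : Fin m → k) {δ : ℝ}
    (hδ : 0 < δ) : ∃ ε : ℝ, 0 < ε ∧ ∀ x : Fin m → k,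
      (∀ i, ‖φ (algebraMap k K (x i)) - φ (algebraMap k K (x0 i))‖ < ε) →
        ‖φ (F x) - φ (F x0)‖ < δ := by
  obtain ⟨G, hG, hGF⟩ := pm_cont φ hF
  have h4 : ∀ᶠ y in 𝓝 (fun i => φ (algebraMap k K (x0 i))), ‖G y - φ (F x0)‖ < δ := by
    have e1 : ContinuousAt (fun y => ‖G y - φ (F x0)‖) (fun i => φ (algebraMap k K (x0 i))) :=
      (hG.sub continuous_const).norm.continuousAt
    refine e1.eventually_mem (Iio_mem_nhds ?_)
    rw [hGF, sub_self, norm_zero]
    exact hδ
  obtain ⟨ε, hε, h5⟩ := Metric.eventually_nhds_iff.mp h4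
  refine ⟨ε, hε, fun x hx => ?_⟩
  rw [← hGF x]
  refine h5 ?_
  rw [dist_pi_lt_iff hε]
  intro i
  rw [dist_eq_norm]
  exact hx i

variable {D : Type} [Ring D] [Algebra k D] [Algebra K D] [IsScalarTower k K D] (C : Cub K D)
  {N : ℕ} (B : Basis (Fin N) k D)

theorem pm_id : Pm fun x : Fin N → k => ∑ i, x i • B i := Pm.sum _ fun _ _ => Pm.coord _ _

/-- **The coefficients of the reduced characteristic polynomial are continuous.** -/
theorem coeff_near (h2 : (2 : K) ≠ 0) (φ : K →+* L) (y0 : D) {δ : ℝ} (hδ : 0 < δ) :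
    ∃ ε : ℝ, 0 < ε ∧ ∀ y : D,
      (∀ i, ‖φ (algebraMap k K (B.repr (y - y0) i))‖ < ε) →
        ‖φ (C.T y) - φ (C.T y0)‖ < δ ∧ ‖φ (C.S y) - φ (C.S y0)‖ < δ ∧
          ‖φ (C.N y) - φ (C.N y0)‖ < δ := by
  obtain ⟨ε1, hε1, h1⟩ := pm_near φ (pm_T (C := C) (pm_id B)) (B.repr y0) hδ
  obtain ⟨ε2, hε2, h2'⟩ := pm_near φ (pm_S (C := C) h2 (pm_id B)) (B.repr y0) hδ
  obtain ⟨ε3, hε3, h3⟩ := pm_near φ (PmU.pm_N' (C := C) h2 (pm_id B)) (B.repr y0) hδ
  refine ⟨min ε1 (min ε2 ε3), lt_min hε1 (lt_min hε2 hε3), fun y hy => ?_⟩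
  have e : ∀ i, ‖φ (algebraMap k K (B.repr y i)) - φ (algebraMap k K (B.repr y0 i))‖ <
      min ε1 (min ε2 ε3) := fun i => by
    rw [← map_sub, ← map_sub, ← Finsupp.sub_apply, ← map_sub]
    exact hy i
  have a1 := h1 (B.repr y) fun i => (e i).trans_le (min_le_left _ _)
  have a2 := h2' (B.repr y) fun i => (e i).trans_le ((min_le_right _ _).trans (min_le_left _ _))
  have a3 := h3 (B.repr y) fun i => (e i).trans_le ((min_le_right _ _).trans (min_le_right _ _))
  simp only [B.sum_repr] at a1 a2 a3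
  exact ⟨a1, a2, a3⟩

end pm

end Vale.Agent.P011.H74.S3U
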