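import Vale.Agent.P011.H271.PolF

/-!
# The reduced norm is a polynomial map, in every characteristic different from two
-/

open Module MvPolynomial

set_option linter.unusedSectionVars false

namespace Vale.Agent.P011.H74.PmU

open Vale.Agent.P011.H775 Vale.Agent.P011.H271.S3
open Vale.Agent.P011.H487 (Pm)

variable {k K D : Type} [Field k] [Field K] [Ring D] [Algebra k K] [Algebra k D]
  [Algebra K D] [IsScalarTower k K D] {C : Cub K D} {m : ℕ} {F : (Fin m → k) → D}

/-- **The reduced norm of a polynomial map is a polynomial map.** -/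
theorem pm_N' (h2 : (2 : K) ≠ 0) (hF : Pm F) : Pm fun x => C.N (F x) := by
  refine Pm.ind (P := fun F : (Fin m → k) → D => Pm fun x => C.N (F x)) (fun p w => ?_)
    (fun F G hF hG h3 h4 => ?_) hF
  · have h1 := Pm.gen (k := k) (p ^ 3) (C.N w)
    have e : (fun x => C.N (eval x p • w)) = fun x => eval x (p ^ 3) • C.N w := by
      funext x
      rw [← algebraMap_smul K (eval x p) w, C.N_smul, map_pow, Algebra.smul_def, map_pow]
    rw [e]
    exact h1
  · have h5 := ((h3.add (pm_T (C := C) ((pm_adj (C := C) h2 hF).mul hG))).add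
      (pm_T (C := C) (hF.mul (pm_adj (C := C) h2 hG)))).add h4
    have e : (fun x => C.N (F x + G x)) = fun x => C.N (F x) + C.T (C.adj (F x) * G x) +
        C.T (F x * C.adj (G x)) + C.N (G x) := by
      funext x
      rw [C.N_add]
    rw [e]
    exact h5

end Vale.Agent.P011.H74.PmU
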