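import Vale.Agent.P011.H74.U.S3bTor
import Vale.Agent.P011.H74.U.NearU

/-!
# The cubic field of an element of trace one, characteristic three
-/

open Module Matrix

set_option linter.unusedSectionVars false

namespace Vale.Agent.P011.H74.S3U

open Vale.Agent.P011.H775 Vale.Agent.P011.H948 Vale.Agent.P011.H698 Vale.Agent.P011.H738

section alg

variable {K D : Type} [Field K] [DivisionRing D] [Algebra K D] (C : Cub K D)

include C in
/-- An element which is not central is not quadratic. -/
theorem sq_ne {a : D} (ha : a ∉ Set.range (algebraMap K D)) {α β : K} :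
    a * a ≠ α • (1 : D) + β • a := by
  intro h
  have h1 := C.cayley a
  have h2 : (α + β ^ 2 - C.T a * β + C.S a) • a + (α * β - C.T a * α - C.N a) • (1 : D) = 0 := by
    rw [← h1, h, add_mul, smul_mul_assoc, smul_mul_assoc, one_mul, h]
    module
  have h3 : α + β ^ 2 - C.T a * β + C.S a = 0 := by
    by_contra h0
    apply ha
    refine ⟨-((α + β ^ 2 - C.T a * β + C.S a)⁻¹ * (α * β - C.T a * α - C.N a)), ?_⟩
    have h4 : (α + β ^ 2 - C.T a * β + C.S a) • a =
        -((α * β - C.T a * α - C.N a) • (1 : D)) := eq_neg_of_add_eq_zero_left h2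
    have h5 : a = (α + β ^ 2 - C.T a * β + C.S a)⁻¹ •
        -((α * β - C.T a * α - C.N a) • (1 : D)) := by
      rw [← h4, smul_smul, inv_mul_cancel₀ h0, one_smul]
    conv_rhs => rw [h5]
    rw [Algebra.algebraMap_eq_smul_one, smul_neg, smul_smul, neg_smul]
  have h4 : α * β - C.T a * α - C.N a = 0 := by
    rw [h3, zero_smul, zero_add] at h2
    exact (smul_eq_zero.mp h2).resolve_right one_ne_zero
  apply ha
  refine mem_range_of_root C (r := C.T a - β) ?_
  linear_combination (C.T a - β) * h3 + h4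

include C in
/-- `1`, `a`, `a ^ 2` are independent. -/
theorem ind_any {a : D} (ha : a ∉ Set.range (algebraMap K D)) : Ind K a := by
  intro x y z h
  unfold lam at h
  have hz : z = 0 := by
    by_contra hz
    refine sq_ne C ha (α := -(z⁻¹ * x)) (β := -(z⁻¹ * y)) ?_
    have h1 : z • (a * a) = -(x • (1 : D) + y • a) := by
      rw [add_comm] at h
      exact eq_neg_of_add_eq_zero_left h
    have h2 : a * a = z⁻¹ • -(x • (1 : D) + y • a) := by
      rw [← h1, smul_smul, inv_mul_cancel₀ hz, one_smul]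
    rw [h2]
    module
  subst hz
  rw [zero_smul, add_zero] at h
  have hy : y = 0 := by
    by_contra hy
    apply ha
    refine ⟨-(y⁻¹ * x), ?_⟩
    have h1 : y • a = -(x • (1 : D)) := by
      rw [add_comm] at h
      exact eq_neg_of_add_eq_zero_left h
    have h2 : a = y⁻¹ • -(x • (1 : D)) := by
      rw [← h1, smul_smul, inv_mul_cancel₀ hy, one_smul]
    conv_rhs => rw [h2]
    rw [Algebra.algebraMap_eq_smul_one]
    module
  subst hy
  rw [zero_smul, add_zero] at h
  exact ⟨(smul_eq_zero.mp h).resolve_right one_ne_zero, rfl, rfl⟩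

include C in
/-- The elements which commute with `a`. -/
theorem lam_of_comm [FiniteDimensional K D] [Algebra.IsCentral K D]
    (hdeg : finrank K D = 3 ^ 2) {a : D} (ha : a ∉ Set.range (algebraMap K D)) {x : D}
    (hx : x * a = a * x) : ∃ α β γ : K, x = lam a α β γ := by
  have h0 : x ∈ Algebra.adjoin K {a} :=
    Vale.Agent.P011.H929.centralizer_eq_adjoin Nat.prime_three hdeg ha ha rfl hx
  have h1 : finrank K (Algebra.adjoin K {a}) = 3 := by
    refine Vale.Agent.P011.H929.finrank_eq_of_ne Nat.prime_three hdeg ?_ ?_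
    · intro h1
      have : a ∈ Algebra.adjoin K {a} := Algebra.self_mem_adjoin_singleton K a
      rw [h1] at this
      exact ha (Algebra.mem_bot.mp this)
    · intro h1
      apply ha
      have h2 : a ∈ Subalgebra.center K D := by
        rw [Subalgebra.mem_center_iff]
        intro y
        have hy : y ∈ Algebra.adjoin K {a} := h1 ▸ Algebra.mem_top
        have h3 : Algebra.adjoin K {a} ≤ Subalgebra.centralizer K {a} :=
          Algebra.adjoin_le (by
            rintro _ rfl
            rw [SetLike.mem_coe, Subalgebra.mem_centralizer_iff]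
            rintro _ rfl
            rfl)
        exact ((Subalgebra.mem_centralizer_iff K).mp (h3 hy) a rfl).symm
      rw [Algebra.IsCentral.center_eq_bot] at h2
      exact Algebra.mem_bot.mp h2
  have h2 : LinearMap.range (lamL K a) ≤ Subalgebra.toSubmodule (Algebra.adjoin K {a}) := by
    rintro _ ⟨y, rfl⟩
    have h3 : a ∈ Algebra.adjoin K {a} := Algebra.self_mem_adjoin_singleton K a
    change lam a (y 0) (y 1) (y 2) ∈ Algebra.adjoin K {a}
    unfold lam
    exact add_mem (add_mem (Subalgebra.smul_mem _ (one_mem _) _) (Subalgebra.smul_mem _ h3 _))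
      (Subalgebra.smul_mem _ (mul_mem h3 h3) _)
  have h3 : finrank K (LinearMap.range (lamL K a)) = 3 := by
    rw [LinearMap.finrank_range_of_inj (ind_any C ha).injective, Module.finrank_fin_fun]
  have h4 := Submodule.eq_of_le_of_finrank_eq h2 (h3.trans h1.symm)
  have h5 : x ∈ Subalgebra.toSubmodule (Algebra.adjoin K {a}) := h0
  rw [← h4] at h5
  obtain ⟨y, hy⟩ := h5
  exact ⟨_, _, _, hy.symm⟩

end alg

section T

variable {K D : Type} [Field K] [Ring D] [Algebra K D] (C : Cub K D)

theorem T_lam {h : D} (hT : C.T h = 0) (a b c : K) :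
    C.T (lam h a b c) = 3 * a - 2 * C.S h * c := by
  rw [lam, map_add, map_add, map_smul, map_smul, map_smul, hT, T_sq C hT, C.T_one]
  simp only [smul_eq_mul]
  ring

/-- The adjugate of `1 + x`. -/
theorem adj_one_add (x : D) : C.adj (1 + x) = 1 + (C.T x • (1 : D) - x) + C.adj x := by
  rw [C.adj_add, C.adj_one, Cub.cr, one_mul, mul_one, C.T_one]
  module

end T

section gen

variable {K D : Type} [Field K] [StarRing K] [DivisionRing D] [StarRing D] [Algebra K D]
  [FiniteDimensional K D] [Algebra.IsCentral K D] {C : Cub K D}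

/-- A generator of trace zero whose second coefficient is not zero. -/
theorem exists_gen (hC : SCub C) (hdeg : finrank K D = 3 ^ 2) (h3 : (3 : K) = 0) {a : D}
    (ha : star a = a) (hTa : C.T a = 1) :
    a ∉ Set.range (algebraMap K D) ∧ ∃ h : D, star h = h ∧ C.T h = 0 ∧ C.S h ≠ 0 ∧
      h ∉ Set.range (algebraMap K D) ∧ ∀ y, y * a = a * y ↔ y * h = h * y := by
  have haK : a ∉ Set.range (algebraMap K D) := by
    rintro ⟨c, rfl⟩
    rw [Algebra.algebraMap_eq_smul_one, map_smul, C.T_one, h3, smul_zero] at hTa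
    exact zero_ne_one hTa
  refine ⟨haK, ?_⟩
  set h : D := a * a - C.T (a * a) • a with hh
  have hTh : C.T h = 0 := by
    rw [hh, map_sub, map_smul, hTa, smul_eq_mul, mul_one, sub_self]
  have hhK : h ∉ Set.range (algebraMap K D) := by
    rintro ⟨c, hc⟩
    refine sq_ne C haK (α := c) (β := C.T (a * a)) ?_
    rw [← Algebra.algebraMap_eq_smul_one, hc, hh]
    abel
  have h1 : ∀ y, y * a = a * y → y * h = h * y := by
    intro y hy
    have h2 : y * (a * a) = a * a * y := by rw [← mul_assoc, hy, mul_assoc, hy, mul_assoc]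
    rw [hh, mul_sub, sub_mul, mul_smul_comm, smul_mul_assoc, hy, h2]
  have hah : a * h = h * a := h1 a rfl
  obtain ⟨p, q, r, hpqr⟩ := InE.inv C hdeg hTh hhK hah
  refine ⟨h, ?_, hTh, ?_, hhK, fun y => ⟨h1 y, fun hy => ?_⟩⟩
  · rw [hh, star_sub, star_mul, hC.smul, ha, hC.T_mul_symm ha ha]
  · intro hS
    have h2 := T_lam C hTh p q r
    rw [← hpqr, hTa, h3, hS] at h2
    apply one_ne_zero (α := K)
    rw [h2]
    ring
  · have h2 : Commute y h := hy
    rw [hpqr]
    unfold lam
    have h3 : Commute y (p • (1 : D) + q • h + r • (h * h)) :=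
      (((Commute.one_right y).smul_right p).add_right (h2.smul_right q)).add_right
        ((h2.mul_right h2).smul_right r)
    exact h3.eq

end gen

section rho

variable {K D : Type} [Field K] [DivisionRing D] [Algebra K D] (C : Cub K D) {h : D}
  {g : D →ₗ[K] (Fin 3 → K)} {F : Type} [Field F] [Algebra K F]
  (hT : C.T h = 0) (hg : g.comp (lamL K h) = LinearMap.id)

include hT hg in
theorem rho_T {x : D} (hx : InE K h x) :
    (cubM F).T (rho C h g F x) = algebraMap K F (C.T x) := by
  obtain ⟨a, b, c, rfl⟩ := hx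
  have h6 : (cubM F).S (cM (algebraMap K F (C.S h)) (algebraMap K F (C.N h))) =
    algebraMap K F (C.S h) := cM_adj _ _
  rw [rho_lam C hg, T_lam C hT, T_lam (cubM F) (cM_trace _ _), h6]
  simp only [map_sub, map_mul, map_ofNat]

include hT hg in
theorem rho_S (h2 : (2 : K) ≠ 0) {x : D} (hx : InE K h x) :
    (cubM F).S (rho C h g F x) = algebraMap K F (C.S x) := by
  have h2F : (2 : F) ≠ 0 := by
    rw [← map_ofNat (algebraMap K F) 2]
    exact (map_ne_zero _).mpr h2
  rw [H271.S3.S_formula _ h2F, H271.S3.S_formula C h2, rho_T C hT hg hx, ← rho_mul C hT hg hx hx,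
    rho_T C hT hg (hx.mul C hT hx)]
  simp only [map_sub, map_mul, map_inv₀, map_ofNat]

/-- The extension of a linear form on the cubic field. -/
def LL (h : D) (ℓ : D →ₗ[K] K) (F : Type) [Field F] [Algebra K F]
    (X : Matrix (Fin 3) (Fin 3) F) : F :=
  X 0 0 * algebraMap K F (ℓ 1) + X 1 0 * algebraMap K F (ℓ h) + X 2 0 * algebraMap K F (ℓ (h * h))

theorem LL_add (ℓ : D →ₗ[K] K) (X Y : Matrix (Fin 3) (Fin 3) F) :
    LL h ℓ F (X + Y) = LL h ℓ F X + LL h ℓ F Y := by
  simp only [LL, Matrix.add_apply]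
  ring

theorem LL_sub (ℓ : D →ₗ[K] K) (X Y : Matrix (Fin 3) (Fin 3) F) :
    LL h ℓ F (X - Y) = LL h ℓ F X - LL h ℓ F Y := by
  simp only [LL, Matrix.sub_apply]
  ring

theorem LL_smul (ℓ : D →ₗ[K] K) (c : F) (X : Matrix (Fin 3) (Fin 3) F) :
    LL h ℓ F (c • X) = c * LL h ℓ F X := by
  simp only [LL, Matrix.smul_apply, smul_eq_mul]
  ring

include hg in
theorem LL_rho (ℓ : D →ₗ[K] K) {x : D} (hx : InE K h x) :
    LL h ℓ F (rho C h g F x) = algebraMap K F (ℓ x) := by
  obtain ⟨a, b, c, rfl⟩ := hx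
  rw [rho_lam C hg, LL, lam_cM, lam_cM, lam_cM]
  simp only [Matrix.cons_val_zero, Matrix.cons_val_one, Matrix.cons_val]
  unfold lam
  simp only [map_add, map_smul, smul_eq_mul, map_mul]

end rho

section E

variable {K D : Type} [Field K] [DivisionRing D] [Algebra K D] (C : Cub K D) {h a : D}
  {g ga : D →ₗ[K] (Fin 3 → K)} {F : Type} [Field F] [Algebra K F]
  (hT : C.T h = 0) (hg : g.comp (lamL K h) = LinearMap.id)
  (hga : ga.comp (lamL K a) = LinearMap.id) (haE : InE K h a) (hTa : C.T a = 1)

/-- The coordinate with respect to `1`, `a`, `a ^ 2`. -/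
def co (ga : D →ₗ[K] (Fin 3 → K)) (j : Fin 3) : D →ₗ[K] K := (LinearMap.proj j).comp ga

include hga in
theorem ga_one : ga 1 = ![1, 0, 0] := by
  have h1 := g_lam hga 1 0 0
  rwa [show lam a (1 : K) 0 0 = 1 by simp [lam]] at h1

include hga in
theorem ga_a : ga a = ![0, 1, 0] := by
  have h1 := g_lam hga 0 1 0
  rwa [show lam a (0 : K) 1 0 = a by simp [lam]] at h1

include hga in
theorem ga_sq : ga (a * a) = ![0, 0, 1] := by
  have h1 := g_lam hga 0 0 1
  rwa [show lam a (0 : K) 0 1 = a * a by simp [lam]] at h1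

include hT hg haE hTa in
/-- The reduced norm of the local target. -/
theorem det_E (h2 : (2 : K) ≠ 0) (τ : F) :
    (1 + τ • rho C h g F a).det = 1 + τ + τ ^ 2 * algebraMap K F (C.S a) +
      τ ^ 3 * algebraMap K F (C.N a) := by
  have e1 : (1 + τ • rho C h g F a).det = (cubM F).N (1 + τ • rho C h g F a) := rfl
  have e2 : (cubM F).N (rho C h g F a) = algebraMap K F (C.N a) := rho_det C hT hg haE
  have e3 : (cubM F).T ((cubM F).adj (τ • rho C h g F a)) = τ ^ 2 * algebraMap K F (C.S a) := by
    rw [(cubM F).adj_smul, map_smul, smul_eq_mul]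
    congr 1
    exact rho_S C hT hg h2 haE
  rw [e1, (cubM F).N_add, (cubM F).adj_one, one_mul, one_mul, (cubM F).N_one, (cubM F).N_smul, e2,
    e3, map_smul, rho_T C hT hg haE, hTa, map_one, smul_eq_mul, mul_one]

include hT hg haE hTa in
/-- The adjugate of the local target. -/
theorem adj_E (h2 : (2 : K) ≠ 0) (τ : F) :
    (1 + τ • rho C h g F a).adjugate = 1 + τ • (1 - rho C h g F a) +
      τ ^ 2 • (rho C h g F (a * a) - rho C h g F a +
        algebraMap K F (C.S a) • (1 : Matrix (Fin 3) (Fin 3) F)) := by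
  have e1 : (1 + τ • rho C h g F a).adjugate = (cubM F).adj (1 + τ • rho C h g F a) := rfl
  rw [e1, adj_one_add, (cubM F).adj_smul, (cubM F).adj_eq, map_smul, rho_T C hT hg haE,
    rho_S C hT hg h2 haE, hTa, map_one, ← rho_mul C hT hg haE haE, one_smul]
  rw [smul_eq_mul, mul_one, smul_sub]

include hT hg hga haE hTa in
/-- The coordinates of the target. -/
theorem co_E (τ : F) : LL h (co ga 0) F (1 + τ • rho C h g F a) = 1 ∧
    LL h (co ga 1) F (1 + τ • rho C h g F a) = τ ∧
    LL h (co ga 2) F (1 + τ • rho C h g F a) = 0 := by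
  have e1 : (1 : Matrix (Fin 3) (Fin 3) F) = rho C h g F 1 := (rho_one C hg).symm
  have k1 : ∀ j, LL h (co ga j) F (1 : Matrix (Fin 3) (Fin 3) F) =
      algebraMap K F (ga 1 j) := fun j => by
    rw [e1, LL_rho C hg _ inE_one]
    rfl
  have k2 : ∀ j, LL h (co ga j) F (rho C h g F a) = algebraMap K F (ga a j) := fun j => by
    rw [LL_rho C hg _ haE]
    rfl
  refine ⟨?_, ?_, ?_⟩
  all_goals
    rw [LL_add, LL_smul, k1, k2, ga_one hga, ga_a hga]
    simp

include hT hg hga haE hTa in
/-- The coordinates of the adjugate of the target. -/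
theorem co_adj (h2 : (2 : K) ≠ 0) (τ : F) :
    LL h (co ga 0) F (1 + τ • rho C h g F a).adjugate =
      1 + τ + τ ^ 2 * algebraMap K F (C.S a) ∧
    LL h (co ga 1) F (1 + τ • rho C h g F a).adjugate = -(τ * (1 + τ)) ∧
    LL h (co ga 2) F (1 + τ • rho C h g F a).adjugate = τ ^ 2 := by
  have e1 : (1 : Matrix (Fin 3) (Fin 3) F) = rho C h g F 1 := (rho_one C hg).symm
  have k1 : ∀ j, LL h (co ga j) F (1 : Matrix (Fin 3) (Fin 3) F) =
      algebraMap K F (ga 1 j) := fun j => by
    rw [e1, LL_rho C hg _ inE_one]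
    rfl
  have k2 : ∀ j, LL h (co ga j) F (rho C h g F a) = algebraMap K F (ga a j) := fun j => by
    rw [LL_rho C hg _ haE]
    rfl
  have k3 : ∀ j, LL h (co ga j) F (rho C h g F (a * a)) = algebraMap K F (ga (a * a) j) :=
    fun j => by
    rw [LL_rho C hg _ (haE.mul C hT haE)]
    rfl
  rw [adj_E C hT hg haE hTa h2]
  refine ⟨?_, ?_, ?_⟩
  all_goals
    rw [LL_add, LL_add, LL_smul, LL_smul, LL_add, LL_sub, LL_sub, LL_smul, k1, k2, k3, ga_one hga,
      ga_a hga, ga_sq hga]
    simp
    try ring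

end E

end Vale.Agent.P011.H74.S3U
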