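import Vale.Agent.P011.H74.U.NearU
import Vale.Agent.P011.H124.E2a

/-!
# A common cubic field, characteristic three

`K(a)`, `a` symmetric of trace one and close to a given element at the places of `T`, for
finitely many elements of `K` which are close to one at the places above `T`.
-/

open Module Topology

set_option linter.unusedSectionVars false

namespace Vale.Agent.P011.H74.S3U

open Vale.Agent.P011.H775 Vale.Agent.P011.H738 Vale.Agent.P011.H271 Vale.Agent.P011.H698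
  Vale.Agent.P011.H305 Vale.Agent.P011.H948 Vale.Agent.P011.H756
open Vale.Agent.P011.H518 (Abv)

section scale

variable {K D : Type} [Field K] [Ring D] [Algebra K D]

theorem nx_smul {L : Type} [Field L] {t s n β c : L}
    (h : β ∈ NX (c * t) (c ^ 2 * s) (c ^ 3 * n)) : β ∈ NX t s n := by
  obtain ⟨c0, c1, c2, rfl⟩ := h
  refine ⟨c0, c1 * c, c2 * c ^ 2, ?_⟩
  simp only [RR]
  ring

/-- The local condition only depends on the line spanned by `y`. -/
theorem locX_smul {C : Cub K D} {y : D} {V : Place K} {b c : K} (h : LocX C (c • y) V b) :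
    LocX C y V b := by
  rw [LocX, map_smul, C.S_smul, C.N_smul, smul_eq_mul, map_mul, map_mul, map_mul, map_pow,
    map_pow] at h
  exact nx_smul h

/-- **Integral elements with trace or second coefficient a unit**, characteristic three. -/
theorem loc_int [GFF K] (h3 : (3 : K) = 0) {C : Cub K D} {y : D} {V : Place K} {b : K}
    (hT : V.abv (C.T y) ≤ 1) (hS : V.abv (C.S y) ≤ 1) (hN : V.abv (C.N y) ≤ 1)
    (hb : V.abv b = 1) (hu : V.abv (C.T y) = 1 ∨ V.abv (C.S y) = 1) : LocX C y V b := by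
  refine LocX.of_not_cube hT hS hN hb ?_
  rintro ⟨c, -, e1, e2, -⟩
  rw [h3, zero_mul, sub_zero] at e1 e2
  rcases hu with h | h
  · exact e1.ne h
  · exact e2.ne h

theorem rpow_small {ε c : ℝ} (hε : 0 < ε) (hc : 0 < c) : ∃ ε' : ℝ, 0 < ε' ∧ ∀ x : ℝ, 0 ≤ x →
    x < ε' → x ^ c < ε := by
  refine ⟨ε ^ c⁻¹, Real.rpow_pos_of_pos hε _, fun x hx h => ?_⟩
  calc x ^ c < (ε ^ c⁻¹) ^ c := Real.rpow_lt_rpow hx h hc
    _ = ε := by rw [← Real.rpow_mul hε.le, inv_mul_cancel₀ hc.ne', Real.rpow_one]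

end scale

section num

variable {k : Type} [Field k]

/-- Large parameters. -/
theorem inv_small (v : Place k) {ε : ℝ} (hε : 0 < ε) (e0 e1 n0 n1 n2 : k) : ∃ R : ℝ, ∀ t : k,
    R < v.abv t → t ≠ 0 ∧ v.abv t⁻¹ < ε ∧ v.abv (e0 * t⁻¹ ^ 2 + e1 * t⁻¹) < ε ∧
      v.abv (n0 * t⁻¹ ^ 3 + n1 * t⁻¹ ^ 2 + n2 * t⁻¹) < ε := by
  have p0 := v.abv.nonneg e0
  have p1 := v.abv.nonneg e1
  have q0 := v.abv.nonneg n0
  have q1 := v.abv.nonneg n1
  have q2 := v.abv.nonneg n2
  set M : ℝ := 1 + v.abv e0 + v.abv e1 + v.abv n0 + v.abv n1 + v.abv n2 with hM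
  have hM0 : 0 < M := by positivity
  refine ⟨max 1 (M / ε), fun t ht => ?_⟩
  have h1 : 1 < v.abv t := (le_max_left _ _).trans_lt ht
  have h2 : M / ε < v.abv t := (le_max_right _ _).trans_lt ht
  have ht0 : t ≠ 0 := by
    rintro rfl
    rw [map_zero] at h1
    linarith
  have hp : 0 < v.abv t := by linarith
  set u := v.abv t⁻¹ with hu
  have hu' : u = (v.abv t)⁻¹ := map_inv₀ _ _
  have hu0 : 0 < u := by rw [hu']; positivity
  have hu1 : u ≤ 1 := by rw [hu']; exact inv_le_one_of_one_le₀ h1.le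
  have hMu : M * u < ε := by
    rw [hu', ← div_eq_mul_inv, div_lt_iff₀ hp]
    rw [div_lt_iff₀ hε] at h2
    linarith
  have hu2 : u ^ 2 ≤ u := by nlinarith
  have hu3 : u ^ 3 ≤ u := by nlinarith [sq_nonneg u]
  refine ⟨ht0, by nlinarith, ?_, ?_⟩
  · refine lt_of_le_of_lt ((v.abv.add_le _ _).trans ?_) hMu
    rw [map_mul, map_mul, map_pow, ← hu]
    have a1 := mul_le_mul_of_nonneg_left hu2 p0
    nlinarith
  · refine lt_of_le_of_lt (((v.abv.add_le _ _).trans (add_le_add (v.abv.add_le _ _) le_rfl)).trans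
      ?_) hMu
    rw [map_mul, map_mul, map_mul, map_pow, map_pow, ← hu]
    have a1 := mul_le_mul_of_nonneg_left hu3 q0
    have a2 := mul_le_mul_of_nonneg_left hu2 q1
    nlinarith

/-- Small parameters. -/
theorem t_small (v : Place k) {ε : ℝ} (hε : 0 < ε) (e1 e2 n1 n2 n3 : k) : ∃ r : ℝ, 0 < r ∧
    ∀ t : k, v.abv t < r → v.abv (t * e1 + t ^ 2 * e2) < ε ∧
      v.abv (t * n1 + t ^ 2 * n2 + t ^ 3 * n3) < ε := by
  have p1 := v.abv.nonneg e1
  have p2 := v.abv.nonneg e2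
  have q1 := v.abv.nonneg n1
  have q2 := v.abv.nonneg n2
  have q3 := v.abv.nonneg n3
  set M : ℝ := 1 + v.abv e1 + v.abv e2 + v.abv n1 + v.abv n2 + v.abv n3 with hM
  have hM0 : 0 < M := by positivity
  refine ⟨min 1 (ε / M), lt_min one_pos (by positivity), fun t ht => ?_⟩
  have h1 : v.abv t < 1 := ht.trans_le (min_le_left _ _)
  have h2 : v.abv t < ε / M := ht.trans_le (min_le_right _ _)
  set u := v.abv t with hu
  have hu0 : 0 ≤ u := v.abv.nonneg t
  rw [lt_div_iff₀ hM0] at h2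
  have hu2 : u ^ 2 ≤ u := by nlinarith
  have hu3 : u ^ 3 ≤ u := by nlinarith [sq_nonneg u]
  refine ⟨?_, ?_⟩
  · refine lt_of_le_of_lt ((v.abv.add_le _ _).trans ?_) h2
    rw [map_mul, map_mul, map_pow, ← hu]
    have a1 := mul_le_mul_of_nonneg_right hu2 p2
    nlinarith
  · refine lt_of_le_of_lt (((v.abv.add_le _ _).trans (add_le_add (v.abv.add_le _ _) le_rfl)).trans
      ?_) h2
    rw [map_mul, map_mul, map_mul, map_pow, map_pow, ← hu]
    have a1 := mul_le_mul_of_nonneg_right hu2 q2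
    have a2 := mul_le_mul_of_nonneg_right hu3 q3
    nlinarith

theorem add_le_one (v : Place k) {x y : k} (hx : v.abv x ≤ 1) (hy : v.abv y ≤ 1) :
    v.abv (x + y) ≤ 1 := (v.nonarch x y).trans (max_le hx hy)

theorem mul_le_one (v : Place k) {x y : k} (hx : v.abv x ≤ 1) (hy : v.abv y ≤ 1) :
    v.abv (x * y) ≤ 1 := by
  rw [map_mul]
  exact mul_le_one₀ hx (v.abv.nonneg _) hy

theorem pow_le_one (v : Place k) {x : k} (hx : v.abv x ≤ 1) (n : ℕ) : v.abv (x ^ n) ≤ 1 := by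
  rw [map_pow]
  exact pow_le_one₀ (v.abv.nonneg _) hx

theorem place_fin [GFF k] {x : k} (hx : x ≠ 0) : {v : Place k | v.abv x ≠ 1}.Finite :=
  place_finite hx

theorem le_fin [GFF k] (x : k) : {v : Place k | ¬ v.abv x ≤ 1}.Finite := by
  by_cases hx : x = 0
  · refine Set.Finite.subset Set.finite_empty fun v hv => ?_
    apply hv
    rw [hx, map_zero]
    exact zero_le_one
  · exact (place_fin hx).subset fun v hv h => hv h.le

/-- **The choice of the parameter.** -/
theorem choose_t [GFF k] {e0 e1 e2 n0 n1 n2 n3 : k} (he2 : e2 ≠ 0) {T Q : Set (Place k)}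
    (hT : T.Finite) (hQ : Q.Finite) (hQT : ∀ v ∈ Q, v ∉ T)
    (h0 : ∀ v, v ∉ T → v ∉ Q → v.abv e0 ≤ 1 ∧ v.abv n0 ≤ 1) (r : Place k → ℝ)
    (hr : ∀ v, 0 < r v) (R : Place k → ℝ) :
    ∃ t : k, (∀ v ∈ T, v.abv t < r v) ∧ (∀ v ∈ Q, R v < v.abv t) ∧
      ∀ v, v ∉ T → v ∉ Q →
        (v.abv (e0 + t * e1 + t ^ 2 * e2) ≤ 1 ∧
          v.abv (n0 + t * n1 + t ^ 2 * n2 + t ^ 3 * n3) ≤ 1) ∨
        (v.abv t⁻¹ ≤ 1 ∧ v.abv (t⁻¹ ^ 2 * (e0 + t * e1 + t ^ 2 * e2)) = 1 ∧
          v.abv (t⁻¹ ^ 3 * (n0 + t * n1 + t ^ 2 * n2 + t ^ 3 * n3)) ≤ 1) := by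
  classical
  set R' : Set (Place k) := ((({v | ¬ v.abv e1 ≤ 1} ∪ {v | ¬ v.abv n1 ≤ 1}) ∪
    {v | ¬ v.abv n2 ≤ 1}) ∪ {v | ¬ v.abv n3 ≤ 1}) ∪ {v | v.abv e2 ≠ 1} with hR'
  have hR'f : R'.Finite := ((((le_fin _).union (le_fin _)).union (le_fin _)).union
    (le_fin _)).union (place_fin he2)
  choose r2 hr2 hr2' using fun v : Place k => t_small v one_pos e1 e2 n1 n2 n3
  obtain ⟨δ1, hδ1, h1⟩ := exists_min hT r fun v _ => hr v
  obtain ⟨δ2, hδ2, h2⟩ := exists_min hR'f r2 fun v _ => hr2 v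
  choose big hbig using fun v : Place k => (nt_place (k := k)).big v (R v + 1)
  obtain ⟨t, ht⟩ := wa_place (k := k) ((T ∪ Q) ∪ R') ((hT.union hQ).union hR'f)
    (fun v => if v ∈ Q then big v else 0) (min 1 (min δ1 δ2)) (lt_min one_pos (lt_min hδ1 hδ2))
  have hsm : ∀ v ∈ (T ∪ Q) ∪ R', v ∉ Q → v.abv t < min δ1 δ2 := by
    intro v hv hvQ
    have h3 : v.abv (t - if v ∈ Q then big v else 0) < _ := ht v hv
    rw [if_neg hvQ, sub_zero] at h3
    exact h3.trans_le (min_le_right _ _)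
  refine ⟨t, fun v hv => ?_, fun v hv => ?_, fun v hvT hvQ => ?_⟩
  · have h3 := hsm v (Or.inl (Or.inl hv)) fun h => hQT v h hv
    exact (h3.trans_le (min_le_left _ _)).trans_le (h1 v hv)
  · have h3 : v.abv (t - if v ∈ Q then big v else 0) < _ := ht v (Or.inl (Or.inr hv))
    rw [if_pos hv] at h3
    have h4 := h3.trans_le (min_le_left _ _)
    have h5 : v.abv (big v) ≤ v.abv (big v - t) + v.abv t := by
      have := v.abv.add_le (big v - t) t
      rwa [sub_add_cancel] at this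
    rw [v.abv.map_sub] at h5
    have h6 : R v + 1 < v.abv (big v) := hbig v
    linarith
  · obtain ⟨g1, g2⟩ := h0 v hvT hvQ
    by_cases hvR : v ∈ R'
    · have h3 := hsm v (Or.inr hvR) hvQ
      obtain ⟨h4, h5⟩ := hr2' v t ((h3.trans_le (min_le_right _ _)).trans_le (h2 v hvR))
      left
      refine ⟨?_, ?_⟩
      · rw [add_assoc]
        exact add_le_one v g1 h4.le
      · have e : n0 + t * n1 + t ^ 2 * n2 + t ^ 3 * n3 =
          n0 + (t * n1 + t ^ 2 * n2 + t ^ 3 * n3) := by ring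
        rw [e]
        exact add_le_one v g2 h5.le
    · simp only [hR', Set.mem_union, Set.mem_ofPred_eq, not_or, not_not] at hvR
      obtain ⟨⟨⟨⟨f1, f2⟩, f3⟩, f4⟩, f5⟩ := hvR
      by_cases ht1 : v.abv t ≤ 1
      · left
        refine ⟨?_, ?_⟩
        · exact add_le_one v (add_le_one v g1 (mul_le_one v ht1 f1))
            (mul_le_one v (pow_le_one v ht1 2) f5.le)
        · exact add_le_one v (add_le_one v (add_le_one v g2 (mul_le_one v ht1 f2))
            (mul_le_one v (pow_le_one v ht1 2) f3)) (mul_le_one v (pow_le_one v ht1 3) f4)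
      · right
        push Not at ht1
        have ht0 : t ≠ 0 := by
          rintro rfl
          rw [map_zero] at ht1
          linarith
        have hu : v.abv t⁻¹ < 1 := by
          rw [map_inv₀]
          exact inv_lt_one_of_one_lt₀ ht1
        have e1' : t⁻¹ ^ 2 * (e0 + t * e1 + t ^ 2 * e2) =
            e2 + t⁻¹ * (e1 + t⁻¹ * e0) := by field_simp; ring
        have e2' : t⁻¹ ^ 3 * (n0 + t * n1 + t ^ 2 * n2 + t ^ 3 * n3) =
            n3 + t⁻¹ * (n2 + t⁻¹ * (n1 + t⁻¹ * n0)) := by field_simp; ring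
        refine ⟨hu.le, ?_, ?_⟩
        · rw [e1']
          have h6 : v.abv (t⁻¹ * (e1 + t⁻¹ * e0)) < 1 := by
            rw [map_mul]
            exact mul_lt_one_of_nonneg_of_lt_one_left (v.abv.nonneg _) hu
              (add_le_one v f1 (mul_le_one v hu.le g1))
          have h7 : v.abv (e2 + t⁻¹ * (e1 + t⁻¹ * e0)) = v.abv e2 := by
            refine abv_eq_of_close ?_
            rw [add_sub_cancel_left, f5]
            exact h6
          rw [h7, f5]
        · rw [e2']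
          exact add_le_one v f4 (mul_le_one v hu.le (add_le_one v f3
            (mul_le_one v hu.le (add_le_one v f2 (mul_le_one v hu.le g2)))))

end num

end Vale.Agent.P011.H74.S3U
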