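import Vale.Agent.P011.H74.U.S3bAlg
import Vale.Agent.P011.H698.TorS7
import Vale.Agent.P011.H182.Nma

/-!
# Moving an element of the unitary torus close to one, characteristic three

Uniformly for the tori of the fields `K(a)`, `a` symmetric of trace one close to a given element.
-/

open Module Matrix TensorProduct Topology

set_option linter.unusedSectionVars false

namespace Vale.Agent.P011.H74.S3U

open Vale.Agent.P011.H775 Vale.Agent.P011.H948 Vale.Agent.P011.H698 Vale.Agent.P011.H738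
  Vale.Agent.P011.H182

section small

variable {F : Type} [NontriviallyNormedField F] [IsUltrametricDist F] [CompleteSpace F]

/-- A small root, uniformly. -/
theorem small_root {r : ℝ} (hr : 0 < r) {Sb Nb : ℝ} (hSb : 0 ≤ Sb) (hNb : 0 ≤ Nb) :
    ∃ δ : ℝ, 0 < δ ∧ ∀ b S N : F, ‖b - 1‖ < δ → ‖S‖ ≤ Sb → ‖N‖ ≤ Nb →
      ∃ τ : F, 1 + τ + τ ^ 2 * S + τ ^ 3 * N = b ∧ ‖τ‖ < r ∧ ‖τ‖ ≤ 1 ∧ ‖τ ^ 2 * N‖ ≤ 1 ∧
        ‖b‖ = 1 := by
  have hm : 0 < min (min r 1) (min (1 / (Sb + 1)) (1 / (Nb + 1))) :=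
    lt_min (lt_min hr one_pos) (lt_min (by positivity) (by positivity))
  obtain ⟨ρ, hρ0, hρ⟩ := NormedField.exists_norm_lt F hm
  have hρ' : ρ ≠ 0 := norm_pos_iff.mp hρ0
  have hρr : ‖ρ‖ < r := hρ.trans_le ((min_le_left _ _).trans (min_le_left _ _))
  have hρ1 : ‖ρ‖ < 1 := hρ.trans_le ((min_le_left _ _).trans (min_le_right _ _))
  have hρS : ‖ρ‖ * (Sb + 1) < 1 := by
    have := hρ.trans_le ((min_le_right _ _).trans (min_le_left _ _))
    rwa [lt_div_iff₀ (by positivity)] at this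
  have hρN : ‖ρ‖ * (Nb + 1) < 1 := by
    have := hρ.trans_le ((min_le_right _ _).trans (min_le_right _ _))
    rwa [lt_div_iff₀ (by positivity)] at this
  refine ⟨‖ρ‖, hρ0, fun b S N hb hS hN => ?_⟩
  have hS' : ‖ρ * S‖ ≤ 1 := by
    rw [norm_mul]
    nlinarith [norm_nonneg S]
  have hN' : ‖ρ * N‖ ≤ 1 := by
    rw [norm_mul]
    nlinarith [norm_nonneg N]
  have hN2 : ‖ρ ^ 2 * N‖ ≤ 1 := by
    have e : ρ ^ 2 * N = ρ * (ρ * N) := by ring
    rw [e, norm_mul]
    exact mul_le_one₀ hρ1.le (norm_nonneg _) hN'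
  obtain ⟨z, hz, hz0⟩ := exists_root_zero (a₀ := (1 - b) / ρ) (a₁ := 1) (a₂ := ρ * S)
    (a₃ := ρ ^ 2 * N) (by
      rw [norm_div, norm_sub_rev, div_lt_one hρ0]
      exact hb) norm_one hS' hN2
  have hτ : ‖ρ * z‖ ≤ ‖ρ‖ := by
    rw [norm_mul]
    nlinarith [norm_nonneg z]
  refine ⟨ρ * z, ?_, hτ.trans_lt hρr, hτ.trans hρ1.le, ?_, ?_⟩
  · have e : ρ * ((1 - b) / ρ + 1 * z + ρ * S * z ^ 2 + ρ ^ 2 * N * z ^ 3) = 0 := by
      rw [hz0, mul_zero]
    have e2 : ρ * ((1 - b) / ρ) = 1 - b := by field_simp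
    linear_combination e - e2
  · have e : (ρ * z) ^ 2 * N = (ρ ^ 2 * N) * z ^ 2 := by ring
    rw [e, norm_mul, norm_pow]
    exact mul_le_one₀ hN2 (by positivity) (pow_le_one₀ (norm_nonneg _) hz.le)
  · have e : b = 1 + (b - 1) := by ring
    rw [e]
    exact norm_one_add' (hb.trans hρ1)

end small

section main

variable {k K D : Type} [Field k] [Field K] [StarRing K] [DivisionRing D] [StarRing D]
  [Algebra k K] [Algebra k D] [Algebra K D] [IsScalarTower k K D] [FiniteDimensional K D]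
  [Algebra.IsCentral K D] {C : Cub K D}

variable {ι : Type} [Finite ι] {F : ι → Type} [∀ v, NontriviallyNormedField (F v)]
  [∀ v, IsUltrametricDist (F v)] [∀ v, CompleteSpace (F v)] [∀ v, Algebra k (F v)]
  [∀ v, Algebra K (F v)] [∀ v, IsScalarTower k K (F v)] {N : ℕ}

theorem continuous_LL {L : Type} [NontriviallyNormedField L] [Algebra K L] (h : D)
    (ℓ : D →ₗ[K] K) : Continuous fun X : Matrix (Fin 3) (Fin 3) L => LL h ℓ L X := by
  unfold LL
  have hc : ∀ i j, Continuous fun X : Matrix (Fin 3) (Fin 3) L => X i j := fun i j =>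
    continuous_id.matrix_elem i j
  exact (((hc 0 0).mul continuous_const).add ((hc 1 0).mul continuous_const)).add
    ((hc 2 0).mul continuous_const)

theorem nhds_LL {L : Type} [NontriviallyNormedField L] [Algebra K L] (h : D)
    (ℓ : Fin 3 → D →ₗ[K] K) {E : Matrix (Fin 3) (Fin 3) L} (hE : E.det ≠ 0) {r : ℝ} (hr : 0 < r) :
    {X : Matrix (Fin 3) (Fin 3) L | (∀ j, ‖LL h (ℓ j) L X - LL h (ℓ j) L E‖ < r) ∧
      ∀ j, ‖LL h (ℓ j) L X⁻¹ - LL h (ℓ j) L E⁻¹‖ < r} ∈ 𝓝 E := by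
  have h1 : ∀ j, ∀ᶠ X in 𝓝 E, ‖LL h (ℓ j) L X - LL h (ℓ j) L E‖ < r := fun j => by
    have e1 : ContinuousAt (fun X => ‖LL h (ℓ j) L X - LL h (ℓ j) L E‖) E :=
      ((continuous_LL h (ℓ j)).sub continuous_const).norm.continuousAt
    exact e1.eventually_mem (Iio_mem_nhds (by simpa using hr))
  have hinv : ContinuousAt (fun X : Matrix (Fin 3) (Fin 3) L => X⁻¹) E := by
    have h1 : ContinuousAt (fun X : Matrix (Fin 3) (Fin 3) L => X.det⁻¹ • X.adjugate) E :=
      (continuous_id.matrix_det.continuousAt.inv₀ hE).smul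
        continuous_id.matrix_adjugate.continuousAt
    refine h1.congr (Filter.Eventually.of_forall fun y => ?_)
    change _ = y⁻¹
    rw [Matrix.inv_def, Ring.inverse_eq_inv']
  have h2 : ∀ j, ∀ᶠ X in 𝓝 E, ‖LL h (ℓ j) L X⁻¹ - LL h (ℓ j) L E⁻¹‖ < r := fun j => by
    have e1 : ContinuousAt (fun X : Matrix (Fin 3) (Fin 3) L =>
        ‖LL h (ℓ j) L X⁻¹ - LL h (ℓ j) L E⁻¹‖) E :=
      ((((continuous_LL h (ℓ j)).continuousAt.comp hinv)).sub continuousAt_const).norm
    exact e1.eventually_mem (Iio_mem_nhds (by simpa using hr))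
  exact (Filter.eventually_all.mpr h1).and (Filter.eventually_all.mpr h2)

/-- **The elements of the unitary torus are moved close to one**, uniformly. -/
theorem s7u_abs (hC : SCub C) (hdeg : finrank K D = 3 ^ 2)
    (hfix : ∀ x : K, star x = x → x ∈ Set.range (algebraMap k K))
    (hfix' : ∀ x : k, star (algebraMap k K x) = algebraMap k K x)
    {s : K} (hs : star s = -s) (hs0 : s ≠ 0) (h2 : (2 : k) ≠ 0) (h3 : (3 : k) = 0)
    (hdiv : ∀ v, ∀ x : F v ⊗[K] D, x ≠ 0 → IsUnit x)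
    (hk' : ∀ (y : ∀ v, F v) (η : ℝ), 0 < η → ∃ a : k, ∀ v, ‖algebraMap k (F v) a - y v‖ < η)
    (ab : ι → AbsoluteValue k ℝ) (hab : ∀ v c, ‖algebraMap k (F v) c‖ = ab v c)
    (B : Basis (Fin N) k D) (a0 : D) {ε : ℝ} (hε : 0 < ε) :
    ∃ δ : ℝ, 0 < δ ∧ ∀ u a e : D, (∀ v i, ab v (B.repr (u - 1) i) < δ) →
      (∀ v i, ab v (B.repr (a - a0) i) < δ) → star a = a → C.T a = 1 → e * star e = 1 →
      e * a = a * e → C.N e = C.N u → ∃ t : D, t * star t = 1 ∧ C.N t = 1 ∧ t * a = a * t ∧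
        ∀ v, na B (ab v) (e * t - 1) < ε := by
  classical
  rcases isEmpty_or_nonempty ι with hι | hι
  · refine ⟨1, one_pos, fun u a e _ _ _ _ _ _ _ => ⟨1, ?_, C.N_one, ?_, fun v => ?_⟩⟩
    · rw [star_one, mul_one]
    · rw [mul_one, one_mul]
    · exact isEmptyElim v
  have hk := dense_of_wa hk'
  have h2K : (2 : K) ≠ 0 := by
    rw [← map_ofNat (algebraMap k K) 2]
    exact (map_ne_zero _).mpr h2
  have h3K : (3 : K) = 0 := by rw [← map_ofNat (algebraMap k K) 3, h3, map_zero]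
  -- the constants
  choose C1 hC1 hC1' using fun v => coord_bound (F := F v) hfix hs hs0 h2 B (1 : D)
  choose M hM1 hM using fun v => na_mul B (ab v)
  let C' : ι → ℝ := fun v => M v * ((N + 1) * C1 v)
  have hN1 : (0 : ℝ) < N + 1 := by positivity
  have hC'0 : ∀ v, 0 < C' v := fun v =>
    mul_pos (lt_of_lt_of_le one_pos (hM1 v)) (mul_pos hN1 (hC1 v))
  have hcb : ∀ v (z : K) (y : D), na B (ab v) (z • y) ≤ C' v *
      (‖algebraMap K (F v) z‖ + ‖algebraMap K (F v) (star z)‖) * na B (ab v) y := by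
    intro v z y
    set n : ℝ := ‖algebraMap K (F v) z‖ + ‖algebraMap K (F v) (star z)‖ with hn
    have hn0 : 0 ≤ n := by positivity
    have h1 : na B (ab v) (z • (1 : D)) ≤ N * (C1 v * n) :=
      na_le_of_coord B (ab v) fun i => by
        rw [← hab]
        exact hC1' v z i
    have h4 : z • y = (z • (1 : D)) * y := by rw [smul_mul_assoc, one_mul]
    have hM0 : 0 ≤ M v := zero_le_one.trans (hM1 v)
    have hy0 := na_nonneg B (ab v) y
    rw [h4]
    calc na B (ab v) (z • (1 : D) * y) ≤ M v * na B (ab v) (z • (1 : D)) * na B (ab v) y :=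
          hM v _ _
      _ ≤ M v * (N * (C1 v * n)) * na B (ab v) y :=
          mul_le_mul_of_nonneg_right (mul_le_mul_of_nonneg_left h1 hM0) hy0
      _ ≤ M v * ((N + 1) * (C1 v * n)) * na B (ab v) y := by
          refine mul_le_mul_of_nonneg_right (mul_le_mul_of_nonneg_left ?_ hM0) hy0
          have := mul_nonneg (hC1 v).le hn0
          nlinarith
      _ = C' v * n * na B (ab v) y := by
          simp only [C']
          ring
  choose ε1 hε1 hcoef using fun v => coeff_near C B h2K (algebraMap K (F v)) a0 one_pos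
  let α : ι → ℝ := fun v => na B (ab v) a0 + 1
  have hα : ∀ v, 0 < α v := fun v => by
    have := na_nonneg B (ab v) a0
    simp only [α]
    linarith
  let A : ι → ℝ := fun v => na B (ab v) 1 + α v + M v * α v * α v
  have hA : ∀ v, 0 < A v := fun v => by
    have h1 := na_nonneg B (ab v) 1
    have h4 := hα v
    have h5 : 0 < M v := lt_of_lt_of_le one_pos (hM1 v)
    simp only [A]
    positivity
  let r : ι → ℝ := fun v => ε / (8 * C' v * A v)
  have hr : ∀ v, 0 < r v := fun v => div_pos hε (mul_pos (mul_pos (by norm_num) (hC'0 v)) (hA v))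
  choose δr hδr hroot using fun v => small_root (F := F v) (hr v)
    (Sb := ‖algebraMap K (F v) (C.S a0)‖ + 1) (Nb := ‖algebraMap K (F v) (C.N a0)‖ + 1)
    (by positivity) (by positivity)
  choose ε2 hε2 hu1 using fun v => coeff_near C B h2K (algebraMap K (F v)) 1 (hδr v)
  obtain ⟨δ, hδ, hδle⟩ : ∃ δ : ℝ, 0 < δ ∧ ∀ v, δ ≤ min (ε1 v) (ε2 v) := by
    have := Fintype.ofFinite ι
    refine ⟨Finset.univ.inf' Finset.univ_nonempty fun v => min (ε1 v) (ε2 v), ?_, fun v =>
      Finset.inf'_le _ (Finset.mem_univ v)⟩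
    rw [Finset.lt_inf'_iff]
    exact fun v _ => lt_min (hε1 v) (hε2 v)
  refine ⟨min δ (1 / (N + 1)), lt_min hδ (by positivity), fun u a e hu ha has hTa heu hea hNe => ?_⟩
  have hnk : ∀ v (c : k), ‖algebraMap K (F v) (algebraMap k K c)‖ = ab v c := fun v c => by
    rw [← IsScalarTower.algebraMap_apply, hab]
  have hna : ∀ v, na B (ab v) a ≤ α v := fun v => by
    have h1 : na B (ab v) (a - a0) ≤ N * (1 / (N + 1)) :=
      na_le_of_coord B (ab v) fun i => ((ha v i).trans_le (min_le_right _ _)).le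
    have h4 : (N : ℝ) * (1 / (N + 1)) ≤ 1 := by
      rw [mul_one_div, div_le_one hN1]
      linarith
    have h5 := na_add_le B (ab v) (a - a0) a0
    rw [sub_add_cancel] at h5
    simp only [α]
    linarith
  have hnaa : ∀ v, na B (ab v) (a * a) ≤ M v * α v * α v := fun v => by
    have h1 := hM v a a
    have h4 := na_nonneg B (ab v) a
    have h5 : 0 ≤ M v := zero_le_one.trans (hM1 v)
    calc na B (ab v) (a * a) ≤ M v * na B (ab v) a * na B (ab v) a := h1
      _ ≤ M v * α v * α v := mul_le_mul (mul_le_mul_of_nonneg_left (hna v) h5) (hna v) h4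
          (mul_nonneg h5 (hα v).le)
  -- the local roots
  have hb : ∀ v, ∃ τ : F v, 1 + τ + τ ^ 2 * algebraMap K (F v) (C.S a) +
      τ ^ 3 * algebraMap K (F v) (C.N a) = algebraMap K (F v) (C.N e) ∧ ‖τ‖ < r v ∧ ‖τ‖ ≤ 1 ∧
      ‖τ ^ 2 * algebraMap K (F v) (C.N a)‖ ≤ 1 ∧ ‖algebraMap K (F v) (C.N e)‖ = 1 := fun v => by
    obtain ⟨-, f1, f2⟩ := hcoef v a fun i => by
      rw [hnk]
      exact (ha v i).trans_le ((min_le_left _ _).trans ((hδle v).trans (min_le_left _ _)))
    obtain ⟨-, -, f3⟩ := hu1 v u fun i => by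
      rw [hnk]
      exact (hu v i).trans_le ((min_le_left _ _).trans ((hδle v).trans (min_le_right _ _)))
    refine hroot v _ _ _ ?_ ?_ ?_
    · rw [hNe]
      rwa [C.N_one, map_one] at f3
    · have := norm_add_le (algebraMap K (F v) (C.S a) - algebraMap K (F v) (C.S a0))
        (algebraMap K (F v) (C.S a0))
      rw [sub_add_cancel] at this
      linarith
    · have := norm_add_le (algebraMap K (F v) (C.N a) - algebraMap K (F v) (C.N a0))
        (algebraMap K (F v) (C.N a0))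
      rw [sub_add_cancel] at this
      linarith
  choose τ hτ1 hτ2 hτ3 hτ4 hτ5 using hb
  obtain ⟨haK, h, hh, hTh, hSh, hhK, hcomm⟩ := exists_gen hC hdeg h3K has hTa
  obtain ⟨g, hg⟩ := LinearMap.exists_leftInverse_of_injective (lamL K h)
    (LinearMap.ker_eq_bot.mpr (ind_any C hhK).injective)
  obtain ⟨ga, hga⟩ := LinearMap.exists_leftInverse_of_injective (lamL K a)
    (LinearMap.ker_eq_bot.mpr (ind_any C haK).injective)
  have haE : InE K h a := InE.inv C hdeg hTh hhK ((hcomm a).mp rfl)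
  have heh : e * h = h * e := (hcomm e).mp hea
  let E : ∀ v, Matrix (Fin 3) (Fin 3) (F v) := fun v => 1 + τ v • rho C h g (F v) a
  have hEdet : ∀ v, (E v).det = algebraMap K (F v) (C.N e) := fun v => by
    rw [det_E C hTh hg haE hTa h2K, hτ1]
  have hEd0 : ∀ v, (E v).det ≠ 0 := fun v => by
    rw [hEdet, ← norm_ne_zero_iff, hτ5]
    exact one_ne_zero
  obtain ⟨t, ht1, ht2, ht3, ht4⟩ := tor_wa' hC hdeg hfix hfix' hs hs0 h2 hSh hdiv hk hTh hh hhK
    hg heh heu E (fun v => isE_add isE_one (isE_smul _ (isE_rho C _))) hEdet _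
    (fun v => nhds_LL h (co ga) (hEd0 v) (hr v))
  refine ⟨t, ht1, ht2, (hcomm t).mpr ht3, fun v => ?_⟩
  have htE : InE K h t := InE.inv C hdeg hTh hhK ht3
  have heE : InE K h e := InE.inv C hdeg hTh hhK heh
  have hxE : InE K h (e * t) := heE.mul C hTh htE
  have hxu : e * t * star (e * t) = 1 := by
    rw [star_mul, mul_assoc, ← mul_assoc t, ht1, one_mul, heu]
  obtain ⟨y0, y1, y2, hx⟩ := lam_of_comm C hdeg haK ((hcomm _).mpr hxE.comm)
  obtain ⟨hw1, hw2⟩ := ht4 v
  have hρs : (rho C h g (F v) (e * t))⁻¹ = rho C h g (F v) (star (e * t)) := by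
    refine Matrix.inv_eq_right_inv ?_
    rw [← rho_mul C hTh hg hxE (hxE.star hC hh), hxu, rho_one C hg]
  have hgx : ga (e * t) = ![y0, y1, y2] := by rw [hx, g_lam hga]
  have hgsx : ga (star (e * t)) = ![star y0, star y1, star y2] := by
    rw [hx, star_lam hC has, g_lam hga]
  obtain ⟨q0, q1, q2⟩ := co_E (F := F v) C hTh hg hga haE hTa (τ v)
  obtain ⟨p0, p1, p2⟩ := co_adj (F := F v) C hTh hg hga haE hTa h2K (τ v)
  have hEinv : ∀ j, LL h (co ga j) (F v) (E v)⁻¹ = (algebraMap K (F v) (C.N e))⁻¹ *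
      LL h (co ga j) (F v) (1 + τ v • rho C h g (F v) a).adjugate := fun j => by
    rw [Matrix.inv_def, Ring.inverse_eq_inv', hEdet, LL_smul]
  have hx0 : ∀ j, LL h (co ga j) (F v) (rho C h g (F v) (e * t)) =
      algebraMap K (F v) (ga (e * t) j) := fun j => LL_rho C hg _ hxE
  have hx1 : ∀ j, LL h (co ga j) (F v) (rho C h g (F v) (star (e * t))) =
      algebraMap K (F v) (ga (star (e * t)) j) := fun j => LL_rho C hg _ (hxE.star hC hh)
  have hbi : ‖(algebraMap K (F v) (C.N e))⁻¹‖ = 1 := by rw [norm_inv, hτ5, inv_one]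
  have hb0 : algebraMap K (F v) (C.N e) ≠ 0 := by
    rw [← norm_ne_zero_iff, hτ5]
    exact one_ne_zero
  have a0' := hw1 0
  have a1' := hw1 1
  have a2' := hw1 2
  have b0' := hw2 0
  have b1' := hw2 1
  have b2' := hw2 2
  rw [hρs, hx1, hgsx, hEinv, p0] at b0'
  rw [hρs, hx1, hgsx, hEinv, p1] at b1'
  rw [hρs, hx1, hgsx, hEinv, p2] at b2'
  rw [hx0, hgx, q0] at a0'
  rw [hx0, hgx, q1] at a1'
  rw [hx0, hgx, q2] at a2'
  simp only [Matrix.cons_val_zero, Matrix.cons_val_one, Matrix.cons_val] at a0' a1' a2' b0' b1' b2'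
  have hT2 := hτ2 v
  have hT3 := hτ3 v
  have tri : ∀ x y : F v, ‖x - y‖ < r v → ‖y‖ < r v → ‖x‖ < 2 * r v := fun x y h5 h6 => by
    have := norm_add_le (x - y) y
    rw [sub_add_cancel] at this
    linarith
  have n0 : ‖algebraMap K (F v) (y0 - 1)‖ < 2 * r v := by
    rw [map_sub, map_one]
    have := hr v
    linarith
  have n1 : ‖algebraMap K (F v) y1‖ < 2 * r v := tri _ _ a1' hT2
  have n2 : ‖algebraMap K (F v) y2‖ < 2 * r v := by
    rw [sub_zero] at a2'
    have := hr v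
    linarith
  have m0 : ‖algebraMap K (F v) (star (y0 - 1))‖ < 2 * r v := by
    rw [star_sub, star_one, map_sub, map_one]
    refine tri _ ((algebraMap K (F v) (C.N e))⁻¹ *
      (1 + τ v + τ v ^ 2 * algebraMap K (F v) (C.S a)) - 1) ?_ ?_
    · rwa [sub_sub_sub_cancel_right]
    · have e5 : (algebraMap K (F v) (C.N e))⁻¹ *
        (1 + τ v + τ v ^ 2 * algebraMap K (F v) (C.S a)) - 1 =
          (algebraMap K (F v) (C.N e))⁻¹ * (-(τ v * (τ v ^ 2 * algebraMap K (F v) (C.N a)))) := by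
        have e6 : 1 + τ v + τ v ^ 2 * algebraMap K (F v) (C.S a) =
            algebraMap K (F v) (C.N e) - τ v * (τ v ^ 2 * algebraMap K (F v) (C.N a)) := by
          rw [← hτ1 v]
          ring
        rw [e6, mul_sub, inv_mul_cancel₀ hb0]
        ring
      rw [e5, norm_mul, hbi, one_mul, norm_neg, norm_mul]
      calc ‖τ v‖ * ‖τ v ^ 2 * algebraMap K (F v) (C.N a)‖ ≤ ‖τ v‖ * 1 :=
            mul_le_mul_of_nonneg_left (hτ4 v) (norm_nonneg _)
        _ < r v := by rw [mul_one]; exact hT2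
  have m1 : ‖algebraMap K (F v) (star y1)‖ < 2 * r v := by
    refine tri _ _ b1' ?_
    rw [norm_mul, hbi, one_mul, norm_neg, norm_mul]
    have e5 : ‖1 + τ v‖ ≤ 1 := by
      refine (IsUltrametricDist.norm_add_le_max _ _).trans ?_
      rw [norm_one]
      exact max_le le_rfl hT3
    calc ‖τ v‖ * ‖1 + τ v‖ ≤ ‖τ v‖ * 1 := mul_le_mul_of_nonneg_left e5 (norm_nonneg _)
      _ < r v := by rw [mul_one]; exact hT2
  have m2 : ‖algebraMap K (F v) (star y2)‖ < 2 * r v := by
    refine tri _ _ b2' ?_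
    rw [norm_mul, hbi, one_mul, norm_pow]
    have := norm_nonneg (τ v)
    nlinarith
  have hdec : e * t - 1 = (y0 - 1) • (1 : D) + y1 • a + y2 • (a * a) := by
    rw [hx]
    unfold lam
    module
  have hC'v := hC'0 v
  have hstep : ∀ (z : K) (y : D) (c : ℝ), ‖algebraMap K (F v) z‖ < 2 * r v →
      ‖algebraMap K (F v) (star z)‖ < 2 * r v → na B (ab v) y ≤ c →
      na B (ab v) (z • y) ≤ C' v * (4 * r v) * c := by
    intro z y c h5 h6 h7
    refine (hcb v z y).trans (mul_le_mul (mul_le_mul_of_nonneg_left ?_ hC'v.le) h7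
      (na_nonneg B (ab v) y) ?_)
    · linarith
    · have := hr v
      positivity
  have s0 := hstep (y0 - 1) 1 _ n0 m0 le_rfl
  have s1 := hstep y1 a _ n1 m1 (hna v)
  have s2 := hstep y2 (a * a) _ n2 m2 (hnaa v)
  have s3 := na_add_le B (ab v) ((y0 - 1) • (1 : D) + y1 • a) (y2 • (a * a))
  have s4 := na_add_le B (ab v) ((y0 - 1) • (1 : D)) (y1 • a)
  rw [hdec]
  have hAv := hA v
  have s5 : C' v * (4 * r v) * na B (ab v) 1 + C' v * (4 * r v) * α v +
      C' v * (4 * r v) * (M v * α v * α v) = ε / 2 := by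
    have e5 : C' v * (4 * r v) * na B (ab v) 1 + C' v * (4 * r v) * α v +
      C' v * (4 * r v) * (M v * α v * α v) = C' v * (4 * r v) * A v := by
      simp only [A]
      ring
    rw [e5]
    simp only [r]
    field_simp
    norm_num
  linarith

end main

end Vale.Agent.P011.H74.S3U
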