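import Vale.Agent.P011.H698.TorWA

/-!
# Weak approximation for the norm one unitary torus of a cubic extension

The variant in every characteristic different from two: the trace of the generator is zero and its
second coefficient is not zero; the targets are arbitrary.
-/

open Module Matrix TensorProduct Topology

set_option linter.unusedSectionVars false

namespace Vale.Agent.P011.H74.S3U

open Vale.Agent.P011.H775 Vale.Agent.P011.H948 Vale.Agent.P011.H698 Vale.Agent.P011.H182.QW

section mat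

variable {F : Type} [Field F] {M : Matrix (Fin 3) (Fin 3) F}

variable (hT : M.trace = 0) (hfield : ∀ x, IsE M x → x ≠ 0 → x.det ≠ 0)

include hT hfield in
/-- **Local points**: every element of norm one of the cubic algebra comes from a smooth point of
the quadric. -/
theorem exists_loc' (h2 : (2 : F) ≠ 0) (hS0 : M.adjugate.trace ≠ 0) (hM : M ≠ 0) {s : F} (hs : s ≠ 0)
    {Y : Matrix (Fin 3) (Fin 3) F} (hY : IsE M Y) (hY1 : Y.det = 1) :
    ∃ x : Fin 4 → F, Q4 M.adjugate.trace M.det (s ^ 2) x = 0 ∧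
      (lam M (x 0) (x 1) (x 2) - (s * x 3) • (1 : Matrix (Fin 3) (Fin 3) F)).det ≠ 0 ∧
      lam M (x 0) (x 1) (x 2) + (s * x 3) • (1 : Matrix (Fin 3) (Fin 3) F) =
        Y * (lam M (x 0) (x 1) (x 2) - (s * x 3) • (1 : Matrix (Fin 3) (Fin 3) F)) ∧
      ∃ y, QuadraticMap.polar (Q4 M.adjugate.trace M.det (s ^ 2)) x y ≠ 0 := by
  set S := M.adjugate.trace with hS
  set N := M.det with hN
  have hlamM : lam M (0 : F) 1 0 = M := by simp [lam]
  have hN0 : N ≠ 0 := hfield M ⟨0, 1, 0, hlamM.symm⟩ hM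
  by_cases hY' : Y = 1
  · subst hY'
    refine ⟨![S, 0, 1, 0], ?_, ?_, ?_, ![1, 0, 0, 0], ?_⟩
    · rw [Q4_apply]
      simp [qP]
      ring
    · have h1 : lam M S 0 1 = M.adjugate := by
        have h2 : M.adjugate = M * M + S • (1 : Matrix _ _ F) := adj_h (cubM F) hT
        rw [h2]
        simp [lam]
        abel
      simp only [Matrix.cons_val_zero, Matrix.cons_val_one, Matrix.cons_val, mul_zero, zero_smul,
        sub_zero]
      rw [h1, Matrix.det_adjugate, Fintype.card_fin]
      exact pow_ne_zero _ hN0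
    · simp
    · have h1 : QuadraticMap.polar (Q4 S N (s ^ 2)) ![S, 0, 1, 0] ![1, 0, 0, 0] = 2 * S := by
        simp only [QuadraticMap.polar, Q4_apply]
        simp [qP]
        ring
      rw [h1]
      exact mul_ne_zero h2 hS0
  · have hY1E : IsE M (Y - 1) := isE_sub hY isE_one
    have hY1d : (Y - 1).det ≠ 0 := hfield _ hY1E (sub_ne_zero.mpr hY')
    have hu : IsUnit (Y - 1).det := isUnit_iff_ne_zero.mpr hY1d
    set Z : Matrix (Fin 3) (Fin 3) F := s • ((Y + 1) * (Y - 1)⁻¹) with hZ
    have hZE : IsE M Z := isE_smul _ (isE_mul hT (isE_add hY isE_one) (isE_inv hT hY1E)).1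
    have hZ1 : Z * (Y - 1) = s • (Y + 1) := by
      rw [hZ, smul_mul_assoc, mul_assoc, Matrix.nonsing_inv_mul _ hu, mul_one]
    have hc := (isE_mul hT hZE hY).2
    obtain ⟨a, b, c, habc⟩ := hZE
    have hp : Z + s • (1 : Matrix _ _ F) = Y * (Z - s • (1 : Matrix _ _ F)) := by
      have h4 : Z * Y - Z = s • Y + s • (1 : Matrix _ _ F) := by
        rw [← smul_add, ← hZ1]
        noncomm_ring
      rw [mul_sub, ← hc, mul_smul_comm, mul_one]
      have h5 : Z * Y = Z + (s • Y + s • (1 : Matrix _ _ F)) := by rw [← h4]; abel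
      rw [h5]
      abel
    have hd : (Z - s • (1 : Matrix _ _ F)).det ≠ 0 := by
      have h5 : (Z - s • (1 : Matrix _ _ F)) * (Y - 1) = (2 * s) • (1 : Matrix _ _ F) := by
        rw [sub_mul, hZ1, smul_mul_assoc, one_mul]
        module
      have h6 := congrArg Matrix.det h5
      rw [Matrix.det_mul, Matrix.det_smul, Matrix.det_one, mul_one, Fintype.card_fin] at h6
      intro h7
      rw [h7, zero_mul] at h6
      exact pow_ne_zero 3 (mul_ne_zero h2 hs) h6.symm
    refine ⟨![a, b, c, 1], ?_, ?_, ?_, ![0, 0, 0, 1], ?_⟩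
    · rw [Q4_apply]
      have h5 := congrArg Matrix.det hp
      rw [Matrix.det_mul, hY1, one_mul] at h5
      have h6 : ∀ x : F, (Z + x • (1 : Matrix _ _ F)).det = nP S N (a + x) b c := by
        intro x
        have h7 : Z + x • (1 : Matrix _ _ F) = lam M (a + x) b c := by
          rw [habc]
          unfold lam
          module
        rw [h7]
        exact N_lam (cubM F) hT _ _ _
      have h8 : Z - s • (1 : Matrix _ _ F) = Z + (-s) • (1 : Matrix _ _ F) := by
        rw [neg_smul, sub_eq_add_neg]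
      rw [h8, h6, h6, ← sub_eq_add_neg, ← sub_eq_zero, nP_sub] at h5
      have h9 := (mul_eq_zero.mp h5).resolve_left (mul_ne_zero h2 hs)
      simpa using h9
    · simp only [Matrix.cons_val_zero, Matrix.cons_val_one, Matrix.cons_val, mul_one]
      rw [← habc]
      exact hd
    · simp only [Matrix.cons_val_zero, Matrix.cons_val_one, Matrix.cons_val, mul_one]
      rw [← habc]
      exact hp
    · have h1 : QuadraticMap.polar (Q4 S N (s ^ 2)) ![a, b, c, 1] ![0, 0, 0, 1] =
          2 * s ^ 2 := by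
        simp only [QuadraticMap.polar, Q4_apply]
        simp [qP]
        ring
      rw [h1]
      exact mul_ne_zero h2 (pow_ne_zero _ hs)

end mat

section main

variable {k K D : Type} [Field k] [Field K] [StarRing K] [DivisionRing D] [StarRing D]
  [Algebra k K] [Algebra k D] [Algebra K D] [IsScalarTower k K D] [FiniteDimensional K D]
  [Algebra.IsCentral K D] {C : Cub K D} {h : D}

variable {ι : Type} [Finite ι] [Nonempty ι] {F : ι → Type} [∀ v, NormedField (F v)]
  [∀ v, Algebra k (F v)] [∀ v, Algebra K (F v)] [∀ v, IsScalarTower k K (F v)]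

/-- **Weak approximation for the norm one torus.** -/
theorem tor_wa' (hC : SCub C) (hdeg : finrank K D = 3 ^ 2)
    (hfix : ∀ x : K, star x = x → x ∈ Set.range (algebraMap k K))
    (hfix' : ∀ x : k, star (algebraMap k K x) = algebraMap k K x)
    {s : K} (hs : star s = -s) (hs0 : s ≠ 0) (h2 : (2 : k) ≠ 0) (hSh : C.S h ≠ 0)
    (hdiv : ∀ v, ∀ x : F v ⊗[K] D, x ≠ 0 → IsUnit x)
    (hk : DenseRange fun (a : k) (v : ι) => algebraMap k (F v) a)
    (hT : C.T h = 0) (hh : star h = h) (hhK : h ∉ Set.range (algebraMap K D))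
    {g : D →ₗ[K] (Fin 3 → K)} (hg : g.comp (lamL K h) = LinearMap.id)
    {e : D} (he : e * h = h * e) (heu : e * star e = 1)
    (E : ∀ v, Matrix (Fin 3) (Fin 3) (F v))
    (hE : ∀ v, IsE (cM (algebraMap K (F v) (C.S h)) (algebraMap K (F v) (C.N h))) (E v))
    (hEd : ∀ v, (E v).det = algebraMap K (F v) (C.N e))
    (W : ∀ v, Set (Matrix (Fin 3) (Fin 3) (F v))) (hW : ∀ v, W v ∈ 𝓝 (E v)) :
    ∃ t : D, t * star t = 1 ∧ C.N t = 1 ∧ t * h = h * t ∧
      ∀ v, rho C h g (F v) (e * t) ∈ W v := by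
  have hind : Ind K h := ind_of C hdeg hT hhK
  have h2F : ∀ v, (2 : F v) ≠ 0 := fun v => by
    rw [← map_ofNat (algebraMap k (F v)) 2]
    exact (map_ne_zero _).mpr h2
  have h2K : (2 : K) ≠ 0 := by
    rw [← map_ofNat (algebraMap k K) 2]
    exact (map_ne_zero _).mpr h2
  -- the coefficients
  obtain ⟨S0, hS0⟩ := hfix (C.S h) (by rw [← hC.S, hh])
  obtain ⟨N0, hN0⟩ := hfix (C.N h) (by rw [← hC.N, hh])
  obtain ⟨d0, hd0⟩ := hfix (s ^ 2) (by rw [star_pow, hs, neg_sq])
  have hSF : ∀ v, algebraMap K (F v) (C.S h) = algebraMap k (F v) S0 := fun v => by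
    rw [← hS0, ← IsScalarTower.algebraMap_apply]
  have hNF : ∀ v, algebraMap K (F v) (C.N h) = algebraMap k (F v) N0 := fun v => by
    rw [← hN0, ← IsScalarTower.algebraMap_apply]
  have hdF : ∀ v, algebraMap K (F v) s ^ 2 = algebraMap k (F v) d0 := fun v => by
    rw [← map_pow, ← hd0, ← IsScalarTower.algebraMap_apply]
  set M : ∀ v, Matrix (Fin 3) (Fin 3) (F v) := fun v =>
    cM (algebraMap K (F v) (C.S h)) (algebraMap K (F v) (C.N h)) with hM
  have hMT : ∀ v, (M v).trace = 0 := fun v => cM_trace _ _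
  have hfield : ∀ v x, IsE (M v) x → x ≠ 0 → x.det ≠ 0 := fun v x =>
    det_ne_zero hind (h_cube C hT) (hdiv v) x
  have hM0 : ∀ v, M v ≠ 0 := fun v h0 => by
    have := congrFun (congrFun h0 1) 0
    simp [hM, cM] at this
  -- the elements
  have heE : InE K h e := InE.inv C hdeg hT hhK he
  have hesE : InE K h (star e) := heE.star hC hh
  have hrr : ∀ v, rho C h g (F v) e * rho C h g (F v) (star e) = 1 := fun v => by
    rw [← rho_mul C hT hg heE hesE, heu, rho_one C hg]
  have hY : ∀ v, IsE (M v) (rho C h g (F v) (star e) * E v) := fun v =>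
    (isE_mul (hMT v) (isE_rho C _) (hE v)).1
  have hYd : ∀ v, (rho C h g (F v) (star e) * E v).det = 1 := fun v => by
    rw [Matrix.det_mul, hEd, rho_det C hT hg hesE, mul_comm, ← map_mul, ← C.N_mul, heu, C.N_one,
      map_one]
  -- the local points
  have hSM : ∀ v, (M v).adjugate.trace ≠ 0 := fun v => by
    rw [hM]
    exact (cM_adj _ _).trans_ne ((map_ne_zero _).mpr hSh)
  have hloc := fun v => exists_loc' (hMT v) (hfield v) (h2F v) (hSM v) (hM0 v)
    (s := algebraMap K (F v) s) ((map_ne_zero _).mpr hs0) (hY v) (hYd v)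
  choose x hx1 hx2 hx3 hx4 using hloc
  have hadj : ∀ v, (M v).adjugate.trace = algebraMap k (F v) S0 := fun v => by
    rw [hM]
    exact (cM_adj _ _).trans (hSF v)
  have hdet : ∀ v, (M v).det = algebraMap k (F v) N0 := fun v => by
    rw [hM]
    exact (cM_det _ _).trans (hNF v)
  -- the neighbourhoods
  let p : ∀ v, (Fin 4 → F v) → Matrix (Fin 3) (Fin 3) (F v) := fun v x =>
    lam (M v) (x 0) (x 1) (x 2) + (algebraMap K (F v) s * x 3) • (1 : Matrix _ _ (F v))
  let m : ∀ v, (Fin 4 → F v) → Matrix (Fin 3) (Fin 3) (F v) := fun v x =>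
    lam (M v) (x 0) (x 1) (x 2) - (algebraMap K (F v) s * x 3) • (1 : Matrix _ _ (F v))
  let G : ∀ v, (Fin 4 → F v) → Matrix (Fin 3) (Fin 3) (F v) := fun v x =>
    rho C h g (F v) e * (p v x * (m v x)⁻¹)
  have hpc : ∀ v, Continuous (p v) := fun v => by
    simp only [p, lam]
    fun_prop
  have hmc : ∀ v, Continuous (m v) := fun v => by
    simp only [m, lam]
    fun_prop
  have hGc : ∀ v, ContinuousAt (G v) (x v) := fun v => by
    refine continuousAt_const.mul ((hpc v).continuousAt.mul ?_)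
    have h1 : ContinuousAt (fun y : Fin 4 → F v => ((m v y).det)⁻¹ • (m v y).adjugate) (x v) :=
      ((hmc v).matrix_det.continuousAt.inv₀ (hx2 v)).smul (hmc v).matrix_adjugate.continuousAt
    refine h1.congr (Filter.Eventually.of_forall fun y => ?_)
    change _ = (m v y)⁻¹
    rw [Matrix.inv_def, Ring.inverse_eq_inv']
  have hGx : ∀ v, G v (x v) = E v := fun v => by
    change rho C h g (F v) e * (p v (x v) * (m v (x v))⁻¹) = _
    have h1 : p v (x v) = (rho C h g (F v) (star e) * E v) * m v (x v) := hx3 v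
    rw [h1, mul_assoc (rho C h g (F v) (star e) * E v), Matrix.mul_nonsing_inv _
      (isUnit_iff_ne_zero.mpr (hx2 v)), mul_one, ← mul_assoc, hrr, one_mul]
  let U : ∀ v, Set (Fin 4 → F v) := fun v => {y | (m v y).det ≠ 0 ∧ G v y ∈ W v}
  have hU : ∀ v, U v ∈ 𝓝 (x v) := fun v => by
    refine Filter.inter_mem ?_ ?_
    · exact (hmc v).matrix_det.continuousAt.eventually_ne (hx2 v)
    · exact (hGc v).preimage_mem_nhds (by rw [hGx]; exact hW v)
  -- weak approximation
  obtain ⟨y, hy, hyU⟩ : ∃ y : Fin 4 → k, Q4 S0 N0 d0 y = 0 ∧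
      ∀ v, (fun i => algebraMap k (F v) (y i)) ∈ U v := by
    let j : ∀ v, (Fin 4 → k) →ₛₗ[algebraMap k (F v)] (Fin 4 → F v) := fun v =>
      { toFun := fun y i => algebraMap k (F v) (y i)
        map_add' := fun y z => by
          funext i
          exact map_add _ _ _
        map_smul' := fun c y => by
          funext i
          exact map_mul _ _ _ }
    have hQ : ∀ v (y : Fin 4 → k), Q4 (algebraMap k (F v) S0) (algebraMap k (F v) N0)
        (algebraMap k (F v) d0) (j v y) = algebraMap k (F v) (Q4 S0 N0 d0 y) := by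
      intro v y
      rw [Q4_apply, Q4_apply]
      change qP _ _ (algebraMap k (F v) (y 0)) (algebraMap k (F v) (y 1))
        (algebraMap k (F v) (y 2)) + _ * (algebraMap k (F v) (y 3)) ^ 2 = _
      unfold qP
      simp only [map_add, map_sub, map_mul, map_pow, map_ofNat]
    have hS00 : S0 ≠ 0 := by
      rintro rfl
      rw [map_zero] at hS0
      exact hSh hS0.symm
    have hd00 : d0 ≠ 0 := by
      rintro rfl
      rw [map_zero] at hd0
      exact pow_ne_zero 2 hs0 hd0.symm
    refine Vale.Agent.P011.H182.QW.wa_field (Q4 S0 N0 d0) (fun v => algebraMap k (F v)) j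
      (fun v => Q4 (algebraMap k (F v) S0) (algebraMap k (F v) N0) (algebraMap k (F v) d0)) hQ
      (fun v => ?_) hk ?_ (p := ![S0, 0, 1, 0]) ?_ ⟨![1, 0, 0, 0], ?_⟩ ⟨![0, 0, 0, 1], ?_, ?_⟩ x
      (fun v => ?_) (fun v => ?_) hU
    · have h1 : (fun y : Fin 4 → F v => Q4 (algebraMap k (F v) S0) (algebraMap k (F v) N0)
        (algebraMap k (F v) d0) y) = fun y => qP (algebraMap k (F v) S0) (algebraMap k (F v) N0)
          (y 0) (y 1) (y 2) + algebraMap k (F v) d0 * y 3 ^ 2 := funext fun y => Q4_apply _ _ _ y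
      change Continuous fun y : Fin 4 → F v => Q4 (algebraMap k (F v) S0) (algebraMap k (F v) N0)
        (algebraMap k (F v) d0) y
      rw [h1]
      unfold qP
      fun_prop
    · -- density
      intro z
      rw [mem_closure_iff_nhds]
      intro O hO
      rw [nhds_pi, Filter.mem_pi] at hO
      obtain ⟨I, -, t, ht, hO⟩ := hO
      have h5 : ∀ v, ∃ r : Fin 4 → Set (F v), (∀ i, r i ∈ 𝓝 (z v i)) ∧
          Set.pi Set.univ r ⊆ t v := fun v => by
        have h6 := ht v
        rw [nhds_pi, Filter.mem_pi] at h6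
        obtain ⟨I', -, r, hr, hrt⟩ := h6
        exact ⟨r, hr, fun y hy => hrt fun i _ => hy i (Set.mem_univ i)⟩
      choose r hr hrt using h5
      have h6 : ∀ i : Fin 4, ∃ a : k, ∀ v, algebraMap k (F v) a ∈ r v i := fun i => by
        obtain ⟨a, ha, b, rfl⟩ := (mem_closure_iff_nhds.1 (hk fun v => z v i))
          (Set.pi Set.univ fun v => r v i) (set_pi_mem_nhds Set.finite_univ fun v _ => hr v i)
        exact ⟨b, fun v => ha v (Set.mem_univ v)⟩
      choose a ha using h6
      exact ⟨_, hO fun v _ => hrt v fun i _ => ha i v, ⟨a, rfl⟩⟩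
    · rw [Q4_apply]
      simp [qP]
      ring
    · have h1 : QuadraticMap.polar (Q4 S0 N0 d0) ![S0, 0, 1, 0] ![1, 0, 0, 0] = 2 * S0 := by
        simp only [QuadraticMap.polar, Q4_apply]
        simp [qP]
        ring
      rw [h1]
      exact mul_ne_zero h2 hS00
    · simp only [QuadraticMap.polar, Q4_apply]
      simp [qP]
    · rw [Q4_apply]
      simpa [qP] using hd00
    · have h1 := hx1 v
      rwa [hadj, hdet, hdF] at h1
    · have h1 := hx4 v
      rwa [hadj, hdet, hdF] at h1
  -- the element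
  set α : D := lam h (algebraMap k K (y 0)) (algebraMap k K (y 1)) (algebraMap k K (y 2)) with hα
  set σ : K := s * algebraMap k K (y 3) with hσ
  have hαs : star α = α := by
    rw [hα, star_lam hC hh, hfix', hfix', hfix']
  have hσs : star σ = -σ := by rw [hσ, star_mul', hs, hfix', neg_mul]
  have hαE : InE K h α := ⟨_, _, _, rfl⟩
  have hpE : InE K h (α + σ • (1 : D)) := hαE.add (inE_one.smul _)
  have hmE : InE K h (α - σ • (1 : D)) := hαE.sub (inE_one.smul _)
  have hrα : ∀ v, rho C h g (F v) α = lam (M v) (algebraMap k (F v) (y 0))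
      (algebraMap k (F v) (y 1)) (algebraMap k (F v) (y 2)) := fun v => by
    rw [hα, rho_lam C hg, ← IsScalarTower.algebraMap_apply, ← IsScalarTower.algebraMap_apply,
      ← IsScalarTower.algebraMap_apply]
  have hrσ : ∀ v, algebraMap K (F v) σ = algebraMap K (F v) s * algebraMap k (F v) (y 3) :=
    fun v => by rw [hσ, map_mul, ← IsScalarTower.algebraMap_apply]
  have hrp : ∀ v, rho C h g (F v) (α + σ • (1 : D)) = p v fun i => algebraMap k (F v) (y i) :=
    fun v => by rw [rho_add, rho_smul, rho_one C hg, hrα, hrσ]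
  have hrm : ∀ v, rho C h g (F v) (α - σ • (1 : D)) = m v fun i => algebraMap k (F v) (y i) :=
    fun v => by rw [rho_sub, rho_smul, rho_one C hg, hrα, hrσ]
  obtain ⟨v0⟩ := (inferInstance : Nonempty ι)
  have hm0 : α - σ • (1 : D) ≠ 0 := by
    intro h0
    have h1 := (hyU v0).1
    rw [← hrm, h0] at h1
    apply h1
    have h4 : rho C h g (F v0) (0 : D) = 0 := by
      have h5 := rho_smul C (g := g) (F := F v0) (h := h) (0 : K) (0 : D)
      rwa [zero_smul, map_zero, zero_smul] at h5
    rw [h4]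
    simp
  have hp0 : α + σ • (1 : D) ≠ 0 := by
    intro h0
    apply hm0
    have h1 := congrArg star h0
    rw [star_add, hαs, hC.smul, hσs, star_one, star_zero, neg_smul, ← sub_eq_add_neg] at h1
    exact h1
  have hsp : star (α + σ • (1 : D)) = α - σ • (1 : D) := by
    rw [star_add, hαs, hC.smul, hσs, star_one, neg_smul, ← sub_eq_add_neg]
  have hsm : star (α - σ • (1 : D)) = α + σ • (1 : D) := by
    rw [← hsp, star_star]
  have hiE : InE K h (α - σ • (1 : D))⁻¹ := by
    refine InE.inv C hdeg hT hhK ?_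
    have h1 : Commute (α - σ • (1 : D)) h := hmE.comm
    exact h1.inv_left₀
  have hrinv : ∀ v, rho C h g (F v) (α - σ • (1 : D))⁻¹ =
      (m v fun i => algebraMap k (F v) (y i))⁻¹ := fun v => by
    refine (Matrix.inv_eq_right_inv ?_).symm
    rw [← hrm, ← rho_mul C hT hg hmE hiE, mul_inv_cancel₀ hm0, rho_one C hg]
  refine ⟨(α + σ • (1 : D)) * (α - σ • (1 : D))⁻¹, ?_, ?_, ?_, fun v => ?_⟩
  · rw [star_mul, hsp, star_inv₀, hsm]
    have hc : Commute (α + σ • (1 : D)) (α - σ • (1 : D)) := hpE.comm' hmE.comm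
    have hc1 : (α - σ • (1 : D))⁻¹ * (α + σ • (1 : D))⁻¹ =
        (α + σ • (1 : D))⁻¹ * (α - σ • (1 : D))⁻¹ := ((Commute.inv_left₀ (Commute.symm hc)).inv_right₀).eq
    calc (α + σ • (1 : D)) * (α - σ • (1 : D))⁻¹ * ((α + σ • (1 : D))⁻¹ * (α - σ • (1 : D))) =
        (α + σ • (1 : D)) * ((α - σ • (1 : D))⁻¹ * (α + σ • (1 : D))⁻¹) * (α - σ • (1 : D)) := by
          simp only [mul_assoc]
      _ = 1 := by
          rw [hc1, ← mul_assoc, mul_inv_cancel₀ hp0, one_mul, inv_mul_cancel₀ hm0]
  · have h1 : C.N (α + σ • (1 : D)) = C.N (α - σ • (1 : D)) := by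
      have h4 : ∀ c : K, α + c • (1 : D) = lam h (algebraMap k K (y 0) + c) (algebraMap k K (y 1))
          (algebraMap k K (y 2)) := fun c => by
        rw [hα]
        unfold lam
        module
      have h5 : α - σ • (1 : D) = α + (-σ) • (1 : D) := by rw [neg_smul, sub_eq_add_neg]
      rw [h5, h4, h4, N_lam C hT, N_lam C hT, ← sub_eq_add_neg, ← sub_eq_zero, nP_sub]
      have h6 : qP (C.S h) (C.N h) (algebraMap k K (y 0)) (algebraMap k K (y 1))
          (algebraMap k K (y 2)) + σ ^ 2 = 0 := by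
        have h7 := congrArg (algebraMap k K) hy
        rw [Q4_apply, map_zero] at h7
        rw [← h7, hσ, mul_pow, ← hd0, ← hS0, ← hN0]
        unfold qP
        simp only [map_add, map_sub, map_mul, map_pow, map_ofNat]
      rw [h6, mul_zero]
    have h4 : C.N ((α + σ • (1 : D)) * (α - σ • (1 : D))⁻¹) * C.N (α - σ • (1 : D)) =
        C.N (α + σ • (1 : D)) := by
      rw [← C.N_mul, mul_assoc, inv_mul_cancel₀ hm0, mul_one]
    have h5 : C.N (α - σ • (1 : D)) ≠ 0 := by
      intro h6
      have h7 : C.N ((α - σ • (1 : D)) * (α - σ • (1 : D))⁻¹) = 0 := by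
        rw [C.N_mul, h6, zero_mul]
      rw [mul_inv_cancel₀ hm0, C.N_one] at h7
      exact one_ne_zero h7
    exact mul_right_cancel₀ h5 (by rw [h4, h1, one_mul])
  · exact (hpE.mul C hT hiE).comm
  · rw [rho_mul C hT hg heE (hpE.mul C hT hiE), rho_mul C hT hg hpE hiE, hrp, hrinv]
    exact (hyU v).2

end main

end Vale.Agent.P011.H74.S3U
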